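import Mathlib

/-!
# P302: a branch-and-bound certificate checker for pair-slot systems

`slots` is a list of slot capacities, `R` a list of positives.  A family of pairs of positives
(each positive used at most once) is *assignable* if the pairs can be placed into distinct slots,
a pair `(x, y)` fitting a slot `c` when `x + y ≤ c`.  The checker `chk` verifies a certificate that
at most `T` pairs can be assigned.  Definitions only; soundness is proved elsewhere.
-/

namespace Vale.Agent.Helper7.P302

/-- Certificate trees.  `leaf D u v`: weights closing a leaf.  `node idx skip kids`: branch on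
the positive at position `idx`; `skip` treats the case that it is unused, `kids` is a
`cons`/`nil` chain with one entry for every position of the remaining list (the partner). -/
inductive Cert where
  | leaf (D : ℕ) (u v : List ℕ) : Cert
  | nil : Cert
  | cons (head tail : Cert) : Cert
  | node (idx : ℕ) (skip kids : Cert) : Cert

/-- `fits slots s`: some slot has capacity at least `s`. -/
def fits (slots : List ℕ) (s : ℕ) : Bool := slots.any fun c => decide (s ≤ c)

/-- Least weight of a slot of capacity at least `s` (`0` if there is none);
`SV` lists the slots with their weights. -/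
def minFit (SV : List (ℕ × ℕ)) (s : ℕ) : ℕ :=
  match (SV.filter fun cv => decide (s ≤ cv.1)).map Prod.snd with
  | [] => 0
  | w :: l => l.foldl min w

/-- The weight inequality for one pair of (positive, weight) entries. -/
def pairOK (slots : List ℕ) (SV : List (ℕ × ℕ)) (D : ℕ) (x y : ℕ × ℕ) : Bool :=
  !(fits slots (x.1 + y.1)) || decide (D ≤ x.2 + y.2 + minFit SV (x.1 + y.1))

/-- The weight inequality for all pairs of distinct positions. -/
def allPairs (slots : List ℕ) (SV : List (ℕ × ℕ)) (D : ℕ) : List (ℕ × ℕ) → Bool
  | [] => true
  | x :: xs => xs.all (pairOK slots SV D x) && allPairs slots SV D xs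

/-- Leaf check: with positives `R`, already fixed pair sums `F` and weights `u` (positives),
`v` (slots), scaled by `D`, at most `T` pairs in total are possible. -/
def leafOK (slots : List ℕ) (T : ℕ) (R F : List ℕ) (D : ℕ) (u v : List ℕ) : Bool :=
  decide (u.length = R.length) && decide (v.length = slots.length) &&
    allPairs slots (slots.zip v) D (R.zip u) &&
    decide (u.sum + v.sum + D * F.length <
      D * (T + 1) + (F.map (minFit (slots.zip v))).sum)

/-- The checker.  In mode `none` the certificate treats the state `(R, F)`; in mode
`some (a, j)` it is a `cons`/`nil` chain treating the partners at positions `≥ j` of `R`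
for the positive `a` that has been removed from the list. -/
def chk (slots : List ℕ) (T : ℕ) : Cert → Option (ℕ × ℕ) → List ℕ → List ℕ → Bool
  | .leaf D u v, none, R, F => leafOK slots T R F D u v
  | .node idx skip kids, none, R, F =>
      decide (idx < R.length) && chk slots T skip none (R.eraseIdx idx) F &&
        chk slots T kids (some (R.getD idx 0, 0)) (R.eraseIdx idx) F
  | .nil, some (_, j), R, _ => decide (R.length ≤ j)
  | .cons h t, some (a, j), R, F =>
      (match R[j]? with
        | none => false
        | some b => !(fits slots (a + b)) ||
            chk slots T h none (R.eraseIdx j) ((a + b) :: F)) &&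
        chk slots T t (some (a, j + 1)) R F
  | _, _, _, _ => false

/-- `Valid slots R F M`: the pairs `M` use positives of `R` (each at most once, as a multiset),
and the pair sums of `M` together with the fixed sums `F` can be placed into distinct slots:
`A` is the multiset of (sum, slot) incidences. -/
def Valid (slots R F : List ℕ) (M : List (ℕ × ℕ)) : Prop :=
  ((M.flatMap fun x => [x.1, x.2] : List ℕ) : Multiset ℕ) ≤ (R : Multiset ℕ) ∧
    ∃ A : Multiset (ℕ × ℕ),
      A.map Prod.fst = (F : Multiset ℕ) + ((M.map fun x => x.1 + x.2 : List ℕ) : Multiset ℕ) ∧
      A.map Prod.snd ≤ (slots : Multiset ℕ) ∧ ∀ x ∈ A, x.1 ≤ x.2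

end Vale.Agent.Helper7.P302
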