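import Vale.Agent.Helper7.P302.Defs2
import Vale.Agent.Helper7.P302.Check

namespace Vale.Agent.Helper7.P302

/-- The branch-and-bound certificate for the 15-slot system with three dummies. -/
def cert15b : Cert :=
  (.node 0 (.leaf 6 [3, 3, 3, 3, 3, 3, 3, 3, 3, 3, 3, 3, 3, 3, 3, 3, 3, 3, 3, 3, 3, 2, 1, 1, 1, 0, 0, 0, 0, 0, 0] [0, 0, 0, 0, 0, 0, 0, 0, 0, 0, 0, 0, 3, 4, 5]) (.cons (.leaf 6 [3, 3, 3, 3, 3, 3, 3, 3, 3, 3, 3, 3, 3, 3, 3, 3, 3, 3, 3, 3, 2, 1, 1, 1, 0, 0, 0, 0, 0, 0] [0, 0, 0, 0, 0, 0, 0, 0, 0, 0, 0, 0, 3, 4, 5]) (.cons (.leaf 6 [3, 3, 3, 3, 3, 3, 3, 3, 3, 3, 3, 3, 3, 3, 3, 3, 3, 3, 3, 3, 2, 1, 1, 1, 0, 0, 0, 0, 0, 0] [0, 0, 0, 0, 0, 0, 0, 0, 0, 0, 0, 0, 3, 4, 5]) (.cons (.leaf 6 [3, 3, 3, 3, 3, 3, 3, 3, 3, 3, 3, 3, 3, 3, 3, 3, 3, 3, 3, 3, 2, 1, 1, 1, 0, 0, 0, 0, 0, 0] [0, 0, 0, 0, 0, 0, 0, 0, 0, 0, 0, 0, 3, 4, 5]) (.cons (.leaf 6 [3, 3, 3, 3, 3, 3, 3, 3, 3, 3, 3, 3, 3, 3, 3, 3, 3, 3, 3, 3, 2, 1, 1, 1, 0, 0, 0, 0, 0, 0] [0, 0, 0, 0, 0, 0, 0, 0, 0, 0, 0, 0, 3, 4, 5]) (.cons (.leaf 6 [3, 3, 3, 3, 3, 3, 3, 3, 3, 3, 3, 3, 3, 3, 3, 3, 3, 3, 3, 3, 2, 1, 1, 1, 0, 0, 0, 0, 0, 0] [0, 0, 0, 0, 0, 0, 0, 0, 0, 0, 0, 0, 3, 4, 5]) (.cons (.leaf 6 [3, 3, 3, 3, 3, 3, 3, 3, 3, 3, 3, 3, 3, 3, 3, 3, 3, 3, 3, 3, 2, 1, 1, 1, 0, 0, 0, 0, 0, 0] [0, 0, 0, 0, 0, 0, 0, 0, 0, 0, 0, 0, 3, 4, 5]) (.cons (.leaf 6 [3, 3, 3, 3, 3, 3, 3, 3, 3, 3, 3, 3, 3, 3, 3, 3, 3, 3, 3, 3, 2, 1, 1, 1, 0, 0, 0, 0, 0, 0] [0, 0, 0, 0, 0, 0, 0, 0, 0, 0, 0, 0, 3, 4, 5]) (.cons (.leaf 6 [3, 3, 3, 3, 3, 3, 3, 3, 3, 3, 3, 3, 3, 3, 3, 3, 3, 3, 3, 3, 2, 1, 1, 1, 0, 0, 0, 0, 0, 0] [0, 0, 0, 0, 0, 0, 0, 0, 0, 0, 0, 0, 3, 4, 5]) (.cons (.leaf 6 [3, 3, 3, 3, 3, 3, 3, 3, 3, 3, 3, 3, 3, 3, 3, 3, 3, 3, 3, 3, 2, 1, 1, 1, 0, 0, 0, 0, 0, 0] [0, 0, 0, 0, 0, 0, 0, 0, 0, 0, 0, 0, 3, 4, 5]) (.cons (.leaf 6 [3, 3, 3, 3, 3, 3, 3, 3, 3, 3, 3, 3, 3, 3, 3, 3, 3, 3, 3, 3, 2, 1, 1, 1, 0, 0, 0, 0, 0, 0] [0, 0, 0, 0, 0, 0, 0, 0, 0, 0, 0, 0, 3, 4, 5]) (.cons (.leaf 6 [3, 3, 3, 3, 3, 3, 3, 3, 3, 3, 3, 3, 3, 3, 3, 3, 3, 3, 3, 3, 2, 1, 1, 1, 0, 0, 0, 0, 0, 0] [0, 0, 0, 0, 0, 0, 0, 0, 0, 0, 0, 0, 3, 4, 5]) (.cons (.leaf 6 [3, 3, 3, 3, 3, 3, 3, 3, 3, 3, 3, 3, 3, 3, 3, 3, 3, 3, 3, 3, 2, 1, 1, 1, 0, 0, 0, 0, 0, 0] [0, 0, 0, 0, 0, 0, 0, 0, 0, 0, 0, 0, 3, 4, 5]) (.cons (.leaf 6 [3, 3, 3, 3, 3, 3, 3, 3, 3, 3, 3, 3, 3, 3, 3, 3, 3, 3, 3, 3, 2, 1, 1, 1, 0, 0, 0, 0, 0, 0] [0, 0, 0, 0, 0, 0, 0, 0, 0, 0, 0, 0, 3, 4, 5]) (.cons (.leaf 6 [3, 3, 3, 3, 3, 3, 3, 3, 3, 3, 3, 3, 3, 3, 3, 3, 3, 3, 3, 3, 2, 1, 1, 1, 0, 0, 0, 0, 0, 0] [0, 0, 0, 0, 0, 0, 0, 0, 0, 0, 0, 0, 3, 4, 5]) (.cons (.leaf 6 [3, 3, 3, 3, 3, 3, 3, 3, 3, 3, 3, 3, 3, 3, 3, 3, 3, 3, 3, 3, 2, 1, 1, 1, 0, 0, 0, 0, 0, 0] [0, 0, 0, 0, 0, 0, 0, 0, 0, 0, 0, 0, 3, 4, 5]) (.cons (.leaf 6 [3, 3, 3, 3, 3, 3, 3, 3, 3, 3, 3, 3, 3, 3, 3, 3, 3, 3, 3, 3, 2, 1, 1, 1, 0, 0, 0, 0, 0, 0] [0, 0, 0, 0, 0, 0, 0, 0, 0, 0, 0, 0, 3, 4, 5]) (.cons (.leaf 6 [3, 3, 3, 3, 3, 3, 3, 3, 3, 3, 3, 3, 3, 3, 3, 3, 3, 3, 3, 3, 2, 1, 1, 1, 0, 0, 0, 0, 0, 0] [0, 0, 0, 0, 0, 0, 0, 0, 0, 0, 0, 0, 3, 4, 5]) (.cons (.leaf 6 [3, 3, 3, 3, 3, 3, 3, 3, 3, 3, 3, 3, 3, 3, 3, 3, 3, 3, 3, 3, 2, 1, 1, 1, 0, 0, 0, 0, 0, 0] [0, 0, 0, 0, 0, 0, 0, 0, 0, 0, 0, 0, 3, 4, 5]) (.cons (.leaf 6 [3, 3, 3, 3, 3, 3, 3, 3, 3, 3, 3, 3, 3, 3, 3, 3, 3, 3, 3, 3, 2, 1, 1, 1, 0, 0, 0, 0, 0, 0] [0, 0, 0, 0, 0, 0, 0, 0, 0, 0, 0, 0, 3, 4, 5]) (.cons (.leaf 6 [3, 3, 3, 3, 3, 3, 3, 3, 3, 3, 3, 3, 3, 3, 3, 3, 3, 3, 3, 3, 2, 1, 1, 1, 0, 0, 0, 0, 0, 0] [0, 0, 0, 0, 0, 0, 0, 0, 0, 0, 0, 0, 3, 4, 5]) (.cons (.leaf 6 [3, 3, 3, 3, 3, 3, 3, 3, 3, 3, 3, 3, 3, 3, 3, 3, 3, 3, 3, 3, 2, 1, 1, 1, 0, 0, 0, 0, 0, 0] [0, 0, 0, 0, 0, 0, 0, 0, 0, 0, 0, 0, 3, 4, 5]) (.cons (.node 21 (.leaf 2 [1, 1, 1, 1, 1, 1, 1, 1, 1, 1, 1, 1, 1, 1, 1, 1, 1, 1, 1, 1, 1, 0, 0, 0, 0, 0, 0, 0, 0] [0, 0, 0, 0, 0, 0, 0, 0, 0, 0, 0, 1, 1, 1, 2]) (.cons (.leaf 2 [1, 1, 1, 1, 1, 1, 1, 1, 1, 1, 1, 1, 1, 1, 1, 1, 1, 1, 1, 1, 0, 0, 0, 0, 0, 0, 0, 0] [0, 0, 0, 0, 0, 0, 0, 0, 0, 0, 0, 1, 1, 1, 2]) (.cons (.leaf 2 [1, 1, 1, 1, 1, 1, 1, 1, 1, 1, 1, 1, 1, 1, 1, 1, 1, 1, 1, 1, 0, 0, 0, 0, 0, 0, 0, 0] [0, 0, 0, 0, 0, 0, 0, 0, 0, 0, 0, 1, 1, 1, 2]) (.cons (.leaf 2 [1, 1, 1, 1, 1, 1, 1, 1, 1, 1, 1, 1, 1, 1, 1, 1, 1, 1, 1, 1, 0, 0, 0, 0, 0, 0, 0, 0] [0, 0, 0, 0, 0, 0, 0, 0, 0, 0, 0, 1, 1, 1, 2]) (.cons (.leaf 2 [1, 1, 1, 1, 1, 1, 1, 1, 1, 1, 1, 1, 1, 1, 1, 1, 1, 1, 1, 1, 0, 0, 0, 0, 0, 0, 0, 0] [0, 0, 0, 0, 0, 0, 0, 0, 0, 0, 0, 1, 1, 1, 2]) (.cons (.leaf 2 [1, 1, 1, 1, 1, 1, 1, 1, 1, 1, 1, 1, 1, 1, 1, 1, 1, 1, 1, 1, 0, 0, 0, 0, 0, 0, 0, 0] [0, 0, 0, 0, 0, 0, 0, 0, 0, 0, 0, 1, 1, 1, 2]) (.cons (.leaf 2 [1, 1, 1, 1, 1, 1, 1, 1, 1, 1, 1, 1, 1, 1, 1, 1, 1, 1, 1, 1, 0, 0, 0, 0, 0, 0, 0, 0] [0, 0, 0, 0, 0, 0, 0, 0, 0, 0, 0, 1, 1, 1, 2]) (.cons (.leaf 2 [1, 1, 1, 1, 1, 1, 1, 1, 1, 1, 1, 1, 1, 1, 1, 1, 1, 1, 1, 1, 0, 0, 0, 0, 0, 0, 0, 0] [0, 0, 0, 0, 0, 0, 0, 0, 0, 0, 0, 1, 1, 1, 2]) (.cons (.leaf 2 [1, 1, 1, 1, 1, 1, 1, 1, 1, 1, 1, 1, 1, 1, 1, 1, 1, 1, 1, 1, 0, 0, 0, 0, 0, 0, 0, 0] [0, 0, 0, 0, 0, 0, 0, 0, 0, 0, 0, 1, 1, 1, 2]) (.cons (.leaf 2 [1, 1, 1, 1, 1, 1, 1, 1, 1, 1, 1, 1, 1, 1, 1, 1, 1, 1, 1, 1, 0, 0, 0, 0, 0, 0, 0, 0] [0, 0, 0, 0, 0, 0, 0, 0, 0, 0, 0, 1, 1, 1, 2]) (.cons (.leaf 2 [1, 1, 1, 1, 1, 1, 1, 1, 1, 1, 1, 1, 1, 1, 1, 1, 1, 1, 1, 1, 0, 0, 0, 0, 0, 0, 0, 0] [0, 0, 0, 0, 0, 0, 0, 0, 0, 0, 0, 1, 1, 1, 2]) (.cons (.leaf 2 [1, 1, 1, 1, 1, 1, 1, 1, 1, 1, 1, 1, 1, 1, 1, 1, 1, 1, 1, 1, 0, 0, 0, 0, 0, 0, 0, 0] [0, 0, 0, 0, 0, 0, 0, 0, 0, 0, 0, 1, 1, 1, 2]) (.cons (.leaf 2 [1, 1, 1, 1, 1, 1, 1, 1, 1, 1, 1, 1, 1, 1, 1, 1, 1, 1, 1, 1, 0, 0, 0, 0, 0, 0, 0, 0] [0, 0, 0, 0, 0, 0, 0, 0, 0, 0, 0, 1, 1, 1, 2]) (.cons (.leaf 2 [1, 1, 1, 1, 1, 1, 1, 1, 1, 1, 1, 1, 1, 1, 1, 1, 1, 1, 1, 1, 0, 0, 0, 0, 0, 0, 0, 0] [0, 0, 0, 0, 0, 0, 0, 0, 0, 0, 0, 1, 1, 1, 2]) (.cons (.leaf 2 [1, 1, 1, 1, 1, 1, 1, 1, 1, 1, 1, 1, 1, 1, 1, 1, 1, 1, 1, 1, 0, 0, 0, 0, 0, 0, 0, 0] [0, 0, 0, 0, 0, 0, 0, 0, 0, 0, 0, 1, 1, 1, 2]) (.cons (.leaf 2 [1, 1, 1, 1, 1, 1, 1, 1, 1, 1, 1, 1, 1, 1, 1, 1, 1, 1, 1, 1, 0, 0, 0, 0, 0, 0, 0, 0] [0, 0, 0, 0, 0, 0, 0, 0, 0, 0, 0, 1, 1, 1, 2]) (.cons (.leaf 2 [1, 1, 1, 1, 1, 1, 1, 1, 1, 1, 1, 1, 1, 1, 1, 1, 1, 1, 1, 1, 0, 0, 0, 0, 0, 0, 0, 0] [0, 0, 0, 0, 0, 0, 0, 0, 0, 0, 0, 1, 1, 1, 2]) (.cons (.leaf 2 [1, 1, 1, 1, 1, 1, 1, 1, 1, 1, 1, 1, 1, 1, 1, 1, 1, 1, 1, 1, 0, 0, 0, 0, 0, 0, 0, 0] [0, 0, 0, 0, 0, 0, 0, 0, 0, 0, 0, 1, 1, 1, 2]) (.cons (.leaf 2 [1, 1, 1, 1, 1, 1, 1, 1, 1, 1, 1, 1, 1, 1, 1, 1, 1, 1, 1, 1, 0, 0, 0, 0, 0, 0, 0, 0] [0, 0, 0, 0, 0, 0, 0, 0, 0, 0, 0, 1, 1, 1, 2]) (.cons (.leaf 2 [1, 1, 1, 1, 1, 1, 1, 1, 1, 1, 1, 1, 1, 1, 1, 1, 1, 1, 1, 1, 0, 0, 0, 0, 0, 0, 0, 0] [0, 0, 0, 0, 0, 0, 0, 0, 0, 0, 0, 1, 1, 1, 2]) (.cons (.leaf 2 [1, 1, 1, 1, 1, 1, 1, 1, 1, 1, 1, 1, 1, 1, 1, 1, 1, 1, 1, 1, 0, 0, 0, 0, 0, 0, 0, 0] [0, 0, 0, 0, 0, 0, 0, 0, 0, 0, 0, 1, 1, 1, 2]) (.cons (.leaf 2 [1, 1, 1, 1, 1, 1, 1, 1, 1, 1, 1, 1, 1, 1, 1, 1, 1, 1, 1, 1, 0, 0, 0, 0, 0, 0, 0, 0] [0, 0, 0, 0, 0, 0, 0, 0, 0, 0, 0, 1, 1, 1, 2]) (.cons (.node 15 (.leaf 2 [1, 1, 1, 1, 1, 1, 1, 1, 1, 1, 1, 1, 1, 1, 1, 1, 1, 1, 1, 1, 1, 0, 0, 0, 0, 0, 0] [0, 0, 0, 0, 0, 0, 0, 0, 0, 0, 0, 1, 1, 1, 1]) (.cons (.leaf 9 [9, 6, 3, 3, 3, 2, 1, 1, 1, 0, 0, 0, 0, 0, 0, 0, 0, 0, 0, 0, 0, 0, 0, 0, 0, 0] [0, 0, 0, 3, 6, 7, 8, 9, 9, 9, 9, 9, 9, 9, 9]) (.cons (.leaf 9 [9, 6, 3, 3, 3, 2, 1, 1, 1, 0, 0, 0, 0, 0, 0, 0, 0, 0, 0, 0, 0, 0, 0, 0, 0, 0] [0, 0, 0, 3, 6, 7, 8, 9, 9, 9, 9, 9, 9, 9, 9]) (.cons (.leaf 3 [2, 2, 1, 1, 1, 1, 1, 1, 1, 1, 1, 1, 1, 1, 0, 0, 0, 0, 0, 0, 0, 0, 0, 0, 0, 0] [0, 0, 0, 1, 1, 1, 1, 1, 2, 2, 3, 3, 3, 3, 3]) (.cons (.leaf 27 [18, 18, 15, 12, 12, 11, 10, 10, 10, 9, 9, 9, 9, 9, 0, 0, 0, 0, 0, 0, 0, 0, 0, 0, 0, 0] [0, 0, 0, 3, 6, 7, 8, 9, 18, 18, 27, 27, 27, 27, 27]) (.cons (.leaf 27 [18, 18, 15, 12, 12, 11, 10, 10, 10, 9, 9, 9, 9, 9, 0, 0, 0, 0, 0, 0, 0, 0, 0, 0, 0, 0] [0, 0, 0, 3, 6, 7, 8, 9, 18, 18, 27, 27, 27, 27, 27]) (.cons (.leaf 27 [18, 18, 15, 12, 12, 11, 10, 10, 10, 9, 9, 9, 9, 9, 0, 0, 0, 0, 0, 0, 0, 0, 0, 0, 0, 0] [0, 0, 0, 3, 6, 7, 8, 9, 18, 18, 27, 27, 27, 27, 27]) (.cons (.leaf 18 [12, 12, 10, 8, 8, 8, 7, 7, 7, 6, 6, 6, 6, 0, 0, 0, 0, 0, 0, 0, 0, 0, 0, 0, 0, 0] [0, 0, 0, 2, 4, 4, 5, 6, 18, 18, 18, 18, 18, 18, 18]) (.cons (.leaf 9 [6, 6, 5, 4, 4, 4, 4, 3, 3, 3, 3, 3, 3, 0, 0, 0, 0, 0, 0, 0, 0, 0, 0, 0, 0, 0] [0, 0, 0, 1, 2, 2, 3, 3, 9, 9, 9, 9, 9, 9, 9]) (.cons (.leaf 27 [18, 18, 15, 12, 12, 12, 11, 10, 10, 9, 9, 9, 9, 0, 0, 0, 0, 0, 0, 0, 0, 0, 0, 0, 0, 0] [0, 0, 0, 3, 6, 7, 8, 9, 27, 27, 27, 27, 27, 27, 27]) (.cons (.leaf 27 [18, 18, 15, 12, 12, 12, 11, 10, 10, 9, 9, 9, 9, 0, 0, 0, 0, 0, 0, 0, 0, 0, 0, 0, 0, 0] [0, 0, 0, 3, 6, 7, 8, 9, 27, 27, 27, 27, 27, 27, 27]) (.cons (.leaf 27 [18, 18, 15, 12, 12, 12, 11, 10, 10, 10, 9, 9, 9, 9, 0, 0, 0, 0, 0, 0, 0, 0, 0, 0, 0, 0] [0, 0, 0, 3, 6, 7, 8, 9, 18, 18, 27, 27, 27, 27, 27]) (.cons (.leaf 27 [18, 18, 15, 12, 12, 12, 11, 10, 10, 10, 9, 9, 9, 9, 0, 0, 0, 0, 0, 0, 0, 0, 0, 0, 0, 0] [0, 0, 0, 3, 6, 7, 8, 9, 18, 18, 27, 27, 27, 27, 27]) (.cons (.leaf 27 [18, 18, 15, 12, 12, 12, 11, 10, 10, 10, 9, 9, 9, 9, 0, 0, 0, 0, 0, 0, 0, 0, 0, 0, 0, 0] [0, 0, 0, 3, 6, 7, 8, 9, 18, 18, 27, 27, 27, 27, 27]) (.cons (.leaf 27 [18, 18, 15, 12, 12, 12, 11, 10, 10, 10, 9, 9, 9, 9, 0, 0, 0, 0, 0, 0, 0, 0, 0, 0, 0, 0] [0, 0, 0, 3, 6, 7, 8, 9, 18, 18, 27, 27, 27, 27, 27]) (.cons (.leaf 27 [18, 18, 15, 12, 12, 12, 11, 10, 10, 10, 9, 9, 9, 9, 0, 0, 0, 0, 0, 0, 0, 0, 0, 0, 0, 0] [0, 0, 0, 3, 6, 7, 8, 9, 18, 18, 27, 27, 27, 27, 27]) (.cons (.node 15 (.leaf 2 [1, 1, 1, 1, 1, 1, 1, 1, 1, 1, 1, 1, 1, 1, 1, 1, 1, 1, 1, 0, 0, 0, 0, 0, 0] [0, 0, 0, 0, 0, 0, 0, 0, 0, 0, 0, 1, 1, 1, 1]) (.cons (.leaf 9 [9, 6, 3, 3, 3, 2, 1, 1, 1, 0, 0, 0, 0, 0, 0, 0, 0, 0, 0, 0, 0, 0, 0, 0] [0, 0, 0, 3, 6, 7, 8, 9, 9, 9, 9, 9, 9, 9, 9]) (.cons (.leaf 9 [9, 6, 3, 3, 3, 2, 1, 1, 1, 0, 0, 0, 0, 0, 0, 0, 0, 0, 0, 0, 0, 0, 0, 0] [0, 0, 0, 3, 6, 7, 8, 9, 9, 9, 9, 9, 9, 9, 9]) (.cons (.leaf 3 [2, 2, 1, 1, 1, 1, 1, 1, 1, 1, 1, 1, 1, 1, 0, 0, 0, 0, 0, 0, 0, 0, 0, 0] [0, 0, 0, 1, 1, 1, 1, 1, 2, 2, 2, 3, 3, 3, 3]) (.cons (.leaf 27 [18, 18, 15, 12, 12, 11, 10, 10, 10, 9, 9, 9, 9, 9, 0, 0, 0, 0, 0, 0, 0, 0, 0, 0] [0, 0, 0, 3, 6, 7, 8, 9, 18, 18, 18, 27, 27, 27, 27]) (.cons (.leaf 27 [18, 18, 15, 12, 12, 11, 10, 10, 10, 9, 9, 9, 9, 9, 0, 0, 0, 0, 0, 0, 0, 0, 0, 0] [0, 0, 0, 3, 6, 7, 8, 9, 18, 18, 18, 27, 27, 27, 27]) (.cons (.leaf 27 [18, 18, 15, 12, 12, 11, 10, 10, 10, 9, 9, 9, 9, 9, 0, 0, 0, 0, 0, 0, 0, 0, 0, 0] [0, 0, 0, 3, 6, 7, 8, 9, 18, 18, 18, 27, 27, 27, 27]) (.cons (.leaf 18 [12, 12, 10, 8, 8, 8, 7, 7, 7, 6, 6, 6, 6, 6, 0, 0, 0, 0, 0, 0, 0, 0, 0, 0] [0, 0, 0, 2, 4, 4, 5, 6, 12, 12, 12, 18, 18, 18, 18]) (.cons (.leaf 9 [6, 6, 5, 4, 4, 4, 4, 3, 3, 3, 3, 3, 3, 3, 0, 0, 0, 0, 0, 0, 0, 0, 0, 0] [0, 0, 0, 1, 2, 2, 3, 3, 6, 6, 6, 9, 9, 9, 9]) (.cons (.leaf 27 [18, 18, 15, 12, 12, 12, 11, 10, 10, 9, 9, 9, 9, 9, 0, 0, 0, 0, 0, 0, 0, 0, 0, 0] [0, 0, 0, 3, 6, 7, 8, 9, 18, 18, 18, 27, 27, 27, 27]) (.cons (.leaf 27 [18, 18, 15, 12, 12, 12, 11, 10, 10, 9, 9, 9, 9, 9, 0, 0, 0, 0, 0, 0, 0, 0, 0, 0] [0, 0, 0, 3, 6, 7, 8, 9, 18, 18, 18, 27, 27, 27, 27]) (.cons (.leaf 27 [18, 18, 15, 12, 12, 12, 11, 10, 10, 10, 9, 9, 9, 0, 0, 0, 0, 0, 0, 0, 0, 0, 0, 0] [0, 0, 0, 3, 6, 7, 8, 9, 27, 27, 27, 27, 27, 27, 27]) (.cons (.leaf 27 [18, 18, 15, 12, 12, 12, 11, 10, 10, 10, 9, 9, 9, 0, 0, 0, 0, 0, 0, 0, 0, 0, 0, 0] [0, 0, 0, 3, 6, 7, 8, 9, 27, 27, 27, 27, 27, 27, 27]) (.cons (.leaf 27 [18, 18, 15, 12, 12, 12, 11, 10, 10, 10, 9, 9, 9, 0, 0, 0, 0, 0, 0, 0, 0, 0, 0, 0] [0, 0, 0, 3, 6, 7, 8, 9, 27, 27, 27, 27, 27, 27, 27]) (.cons (.leaf 27 [18, 18, 15, 12, 12, 12, 11, 10, 10, 10, 9, 9, 9, 0, 0, 0, 0, 0, 0, 0, 0, 0, 0, 0] [0, 0, 0, 3, 6, 7, 8, 9, 27, 27, 27, 27, 27, 27, 27]) (.cons (.leaf 27 [18, 18, 15, 12, 12, 12, 11, 10, 10, 10, 9, 9, 9, 9, 0, 0, 0, 0, 0, 0, 0, 0, 0, 0] [0, 0, 0, 3, 6, 7, 8, 9, 18, 18, 18, 27, 27, 27, 27]) (.cons (.leaf 27 [18, 18, 15, 12, 12, 12, 11, 10, 10, 10, 9, 9, 9, 9, 0, 0, 0, 0, 0, 0, 0, 0, 0, 0] [0, 0, 0, 3, 6, 7, 8, 9, 18, 27, 27, 27, 27, 27, 27]) (.cons (.leaf 27 [18, 18, 15, 12, 12, 12, 11, 10, 10, 10, 9, 9, 9, 9, 0, 0, 0, 0, 0, 0, 0, 0, 0, 0] [0, 0, 0, 3, 6, 7, 8, 9, 18, 27, 27, 27, 27, 27, 27]) (.cons (.leaf 27 [18, 18, 15, 12, 12, 12, 11, 10, 10, 10, 9, 9, 9, 9, 0, 0, 0, 0, 0, 0, 0, 0, 0, 0] [0, 0, 0, 3, 6, 7, 8, 9, 18, 27, 27, 27, 27, 27, 27]) (.cons (.leaf 2 [1, 1, 1, 1, 1, 1, 1, 1, 1, 1, 1, 1, 1, 1, 1, 1, 1, 1, 0, 0, 0, 0, 0, 0] [0, 0, 0, 0, 0, 0, 0, 0, 0, 0, 0, 1, 1, 1, 1]) (.cons (.leaf 27 [18, 18, 15, 12, 12, 12, 11, 10, 10, 10, 9, 9, 9, 9, 9, 0, 0, 0, 0, 0, 0, 0, 0, 0] [0, 0, 0, 3, 6, 7, 8, 9, 18, 18, 18, 27, 27, 27, 27]) (.cons (.leaf 27 [18, 18, 15, 12, 12, 12, 11, 10, 10, 10, 9, 9, 9, 9, 9, 0, 0, 0, 0, 0, 0, 0, 0, 0] [0, 0, 0, 3, 6, 7, 8, 9, 18, 18, 18, 27, 27, 27, 27]) (.cons (.leaf 27 [18, 18, 15, 12, 12, 12, 11, 10, 10, 10, 9, 9, 9, 9, 9, 0, 0, 0, 0, 0, 0, 0, 0, 0] [0, 0, 0, 3, 6, 7, 8, 9, 18, 18, 18, 27, 27, 27, 27]) (.cons .nil (.cons .nil (.cons .nil .nil)))))))))))))))))))))))))) (.cons (.node 15 (.leaf 2 [1, 1, 1, 1, 1, 1, 1, 1, 1, 1, 1, 1, 1, 1, 1, 1, 1, 1, 1, 0, 0, 0, 0, 0, 0] [0, 0, 0, 0, 0, 0, 0, 0, 0, 0, 0, 1, 1, 1, 1]) (.cons (.leaf 9 [9, 6, 3, 3, 3, 2, 1, 1, 1, 0, 0, 0, 0, 0, 0, 0, 0, 0, 0, 0, 0, 0, 0, 0] [0, 0, 0, 3, 6, 7, 8, 9, 9, 9, 9, 9, 9, 9, 9]) (.cons (.leaf 9 [9, 6, 3, 3, 3, 2, 1, 1, 1, 0, 0, 0, 0, 0, 0, 0, 0, 0, 0, 0, 0, 0, 0, 0] [0, 0, 0, 3, 6, 7, 8, 9, 9, 9, 9, 9, 9, 9, 9]) (.cons (.leaf 3 [2, 2, 1, 1, 1, 1, 1, 1, 1, 1, 1, 1, 1, 1, 0, 0, 0, 0, 0, 0, 0, 0, 0, 0] [0, 0, 0, 1, 1, 1, 1, 1, 2, 2, 2, 3, 3, 3, 3]) (.cons (.leaf 27 [18, 18, 15, 12, 12, 11, 10, 10, 10, 9, 9, 9, 9, 9, 0, 0, 0, 0, 0, 0, 0, 0, 0, 0] [0, 0, 0, 3, 6, 7, 8, 9, 18, 18, 18, 27, 27, 27, 27]) (.cons (.leaf 27 [18, 18, 15, 12, 12, 11, 10, 10, 10, 9, 9, 9, 9, 9, 0, 0, 0, 0, 0, 0, 0, 0, 0, 0] [0, 0, 0, 3, 6, 7, 8, 9, 18, 18, 18, 27, 27, 27, 27]) (.cons (.leaf 27 [18, 18, 15, 12, 12, 11, 10, 10, 10, 9, 9, 9, 9, 9, 0, 0, 0, 0, 0, 0, 0, 0, 0, 0] [0, 0, 0, 3, 6, 7, 8, 9, 18, 18, 18, 27, 27, 27, 27]) (.cons (.leaf 18 [12, 12, 10, 8, 8, 8, 7, 7, 7, 6, 6, 6, 6, 6, 0, 0, 0, 0, 0, 0, 0, 0, 0, 0] [0, 0, 0, 2, 4, 4, 5, 6, 12, 12, 12, 18, 18, 18, 18]) (.cons (.leaf 9 [6, 6, 5, 4, 4, 4, 4, 3, 3, 3, 3, 3, 3, 3, 0, 0, 0, 0, 0, 0, 0, 0, 0, 0] [0, 0, 0, 1, 2, 2, 3, 3, 6, 6, 6, 9, 9, 9, 9]) (.cons (.leaf 27 [18, 18, 15, 12, 12, 12, 11, 10, 10, 9, 9, 9, 9, 9, 0, 0, 0, 0, 0, 0, 0, 0, 0, 0] [0, 0, 0, 3, 6, 7, 8, 9, 18, 18, 18, 27, 27, 27, 27]) (.cons (.leaf 27 [18, 18, 15, 12, 12, 12, 11, 10, 10, 9, 9, 9, 9, 9, 0, 0, 0, 0, 0, 0, 0, 0, 0, 0] [0, 0, 0, 3, 6, 7, 8, 9, 18, 18, 18, 27, 27, 27, 27]) (.cons (.leaf 27 [18, 18, 15, 12, 12, 12, 11, 10, 10, 10, 9, 9, 9, 0, 0, 0, 0, 0, 0, 0, 0, 0, 0, 0] [0, 0, 0, 3, 6, 7, 8, 9, 27, 27, 27, 27, 27, 27, 27]) (.cons (.leaf 27 [18, 18, 15, 12, 12, 12, 11, 10, 10, 10, 9, 9, 9, 0, 0, 0, 0, 0, 0, 0, 0, 0, 0, 0] [0, 0, 0, 3, 6, 7, 8, 9, 27, 27, 27, 27, 27, 27, 27]) (.cons (.leaf 27 [18, 18, 15, 12, 12, 12, 11, 10, 10, 10, 9, 9, 9, 0, 0, 0, 0, 0, 0, 0, 0, 0, 0, 0] [0, 0, 0, 3, 6, 7, 8, 9, 27, 27, 27, 27, 27, 27, 27]) (.cons (.leaf 27 [18, 18, 15, 12, 12, 12, 11, 10, 10, 10, 9, 9, 9, 0, 0, 0, 0, 0, 0, 0, 0, 0, 0, 0] [0, 0, 0, 3, 6, 7, 8, 9, 27, 27, 27, 27, 27, 27, 27]) (.cons (.leaf 27 [18, 18, 15, 12, 12, 12, 11, 10, 10, 10, 9, 9, 9, 9, 0, 0, 0, 0, 0, 0, 0, 0, 0, 0] [0, 0, 0, 3, 6, 7, 8, 9, 18, 18, 18, 27, 27, 27, 27]) (.cons (.leaf 27 [18, 18, 15, 12, 12, 12, 11, 10, 10, 10, 9, 9, 9, 9, 0, 0, 0, 0, 0, 0, 0, 0, 0, 0] [0, 0, 0, 3, 6, 7, 8, 9, 18, 27, 27, 27, 27, 27, 27]) (.cons (.leaf 27 [18, 18, 15, 12, 12, 12, 11, 10, 10, 10, 9, 9, 9, 9, 0, 0, 0, 0, 0, 0, 0, 0, 0, 0] [0, 0, 0, 3, 6, 7, 8, 9, 18, 27, 27, 27, 27, 27, 27]) (.cons (.leaf 27 [18, 18, 15, 12, 12, 12, 11, 10, 10, 10, 9, 9, 9, 9, 0, 0, 0, 0, 0, 0, 0, 0, 0, 0] [0, 0, 0, 3, 6, 7, 8, 9, 18, 27, 27, 27, 27, 27, 27]) (.cons (.leaf 2 [1, 1, 1, 1, 1, 1, 1, 1, 1, 1, 1, 1, 1, 1, 1, 1, 1, 1, 0, 0, 0, 0, 0, 0] [0, 0, 0, 0, 0, 0, 0, 0, 0, 0, 0, 1, 1, 1, 1]) (.cons (.leaf 27 [18, 18, 15, 12, 12, 12, 11, 10, 10, 10, 9, 9, 9, 9, 9, 0, 0, 0, 0, 0, 0, 0, 0, 0] [0, 0, 0, 3, 6, 7, 8, 9, 18, 18, 18, 27, 27, 27, 27]) (.cons (.leaf 27 [18, 18, 15, 12, 12, 12, 11, 10, 10, 10, 9, 9, 9, 9, 9, 0, 0, 0, 0, 0, 0, 0, 0, 0] [0, 0, 0, 3, 6, 7, 8, 9, 18, 18, 18, 27, 27, 27, 27]) (.cons (.leaf 27 [18, 18, 15, 12, 12, 12, 11, 10, 10, 10, 9, 9, 9, 9, 9, 0, 0, 0, 0, 0, 0, 0, 0, 0] [0, 0, 0, 3, 6, 7, 8, 9, 18, 18, 18, 27, 27, 27, 27]) (.cons .nil (.cons .nil (.cons .nil .nil)))))))))))))))))))))))))) (.cons (.leaf 27 [18, 18, 15, 12, 12, 12, 11, 10, 10, 10, 9, 9, 9, 9, 9, 0, 0, 0, 0, 0, 0, 0, 0, 0, 0, 0] [0, 0, 0, 3, 6, 7, 8, 9, 18, 18, 27, 27, 27, 27, 27]) (.cons (.leaf 27 [18, 18, 15, 12, 12, 12, 11, 10, 10, 10, 9, 9, 9, 9, 9, 0, 0, 0, 0, 0, 0, 0, 0, 0, 0, 0] [0, 0, 0, 3, 6, 7, 8, 9, 18, 18, 27, 27, 27, 27, 27]) (.cons (.leaf 27 [18, 18, 15, 12, 12, 12, 11, 10, 10, 10, 9, 9, 9, 9, 9, 0, 0, 0, 0, 0, 0, 0, 0, 0, 0, 0] [0, 0, 0, 3, 6, 7, 8, 9, 18, 18, 27, 27, 27, 27, 27]) (.cons (.leaf 2 [1, 1, 1, 1, 1, 1, 1, 1, 1, 1, 1, 1, 1, 1, 1, 1, 1, 1, 1, 1, 0, 0, 0, 0, 0, 0] [0, 0, 0, 0, 0, 0, 0, 0, 0, 0, 0, 1, 1, 1, 1]) (.cons (.leaf 27 [18, 18, 15, 12, 12, 12, 11, 10, 10, 10, 9, 9, 9, 9, 9, 0, 0, 0, 0, 0, 0, 0, 0, 0, 0, 0] [0, 0, 0, 3, 6, 7, 8, 9, 18, 18, 27, 27, 27, 27, 27]) (.cons (.leaf 27 [18, 18, 15, 12, 12, 12, 11, 10, 10, 10, 9, 9, 9, 9, 9, 0, 0, 0, 0, 0, 0, 0, 0, 0, 0, 0] [0, 0, 0, 3, 6, 7, 8, 9, 18, 18, 27, 27, 27, 27, 27]) (.cons (.leaf 27 [18, 18, 15, 12, 12, 12, 11, 10, 10, 10, 9, 9, 9, 9, 9, 0, 0, 0, 0, 0, 0, 0, 0, 0, 0, 0] [0, 0, 0, 3, 6, 7, 8, 9, 18, 18, 27, 27, 27, 27, 27]) (.cons .nil (.cons .nil (.cons .nil .nil)))))))))))))))))))))))))))) (.cons (.node 15 (.leaf 2 [1, 1, 1, 1, 1, 1, 1, 1, 1, 1, 1, 1, 1, 1, 1, 1, 1, 1, 1, 1, 1, 0, 0, 0, 0, 0, 0] [0, 0, 0, 0, 0, 0, 0, 0, 0, 0, 0, 1, 1, 1, 1]) (.cons (.leaf 9 [9, 6, 3, 3, 3, 2, 1, 1, 1, 0, 0, 0, 0, 0, 0, 0, 0, 0, 0, 0, 0, 0, 0, 0, 0, 0] [0, 0, 0, 3, 6, 7, 8, 9, 9, 9, 9, 9, 9, 9, 9]) (.cons (.leaf 9 [9, 6, 3, 3, 3, 2, 1, 1, 1, 0, 0, 0, 0, 0, 0, 0, 0, 0, 0, 0, 0, 0, 0, 0, 0, 0] [0, 0, 0, 3, 6, 7, 8, 9, 9, 9, 9, 9, 9, 9, 9]) (.cons (.leaf 3 [2, 2, 1, 1, 1, 1, 1, 1, 1, 1, 1, 1, 1, 1, 0, 0, 0, 0, 0, 0, 0, 0, 0, 0, 0, 0] [0, 0, 0, 1, 1, 1, 1, 1, 2, 2, 3, 3, 3, 3, 3]) (.cons (.leaf 27 [18, 18, 15, 12, 12, 11, 10, 10, 10, 9, 9, 9, 9, 9, 0, 0, 0, 0, 0, 0, 0, 0, 0, 0, 0, 0] [0, 0, 0, 3, 6, 7, 8, 9, 18, 18, 27, 27, 27, 27, 27]) (.cons (.leaf 27 [18, 18, 15, 12, 12, 11, 10, 10, 10, 9, 9, 9, 9, 9, 0, 0, 0, 0, 0, 0, 0, 0, 0, 0, 0, 0] [0, 0, 0, 3, 6, 7, 8, 9, 18, 18, 27, 27, 27, 27, 27]) (.cons (.leaf 27 [18, 18, 15, 12, 12, 11, 10, 10, 10, 9, 9, 9, 9, 9, 0, 0, 0, 0, 0, 0, 0, 0, 0, 0, 0, 0] [0, 0, 0, 3, 6, 7, 8, 9, 18, 18, 27, 27, 27, 27, 27]) (.cons (.leaf 18 [12, 12, 10, 8, 8, 8, 7, 7, 7, 6, 6, 6, 6, 0, 0, 0, 0, 0, 0, 0, 0, 0, 0, 0, 0, 0] [0, 0, 0, 2, 4, 4, 5, 6, 18, 18, 18, 18, 18, 18, 18]) (.cons (.leaf 9 [6, 6, 5, 4, 4, 4, 4, 3, 3, 3, 3, 3, 3, 0, 0, 0, 0, 0, 0, 0, 0, 0, 0, 0, 0, 0] [0, 0, 0, 1, 2, 2, 3, 3, 9, 9, 9, 9, 9, 9, 9]) (.cons (.leaf 27 [18, 18, 15, 12, 12, 12, 11, 10, 10, 9, 9, 9, 9, 0, 0, 0, 0, 0, 0, 0, 0, 0, 0, 0, 0, 0] [0, 0, 0, 3, 6, 7, 8, 9, 27, 27, 27, 27, 27, 27, 27]) (.cons (.leaf 27 [18, 18, 15, 12, 12, 12, 11, 10, 10, 9, 9, 9, 9, 0, 0, 0, 0, 0, 0, 0, 0, 0, 0, 0, 0, 0] [0, 0, 0, 3, 6, 7, 8, 9, 27, 27, 27, 27, 27, 27, 27]) (.cons (.leaf 27 [18, 18, 15, 12, 12, 12, 11, 10, 10, 10, 9, 9, 9, 9, 0, 0, 0, 0, 0, 0, 0, 0, 0, 0, 0, 0] [0, 0, 0, 3, 6, 7, 8, 9, 18, 18, 27, 27, 27, 27, 27]) (.cons (.leaf 27 [18, 18, 15, 12, 12, 12, 11, 10, 10, 10, 9, 9, 9, 9, 0, 0, 0, 0, 0, 0, 0, 0, 0, 0, 0, 0] [0, 0, 0, 3, 6, 7, 8, 9, 18, 18, 27, 27, 27, 27, 27]) (.cons (.leaf 27 [18, 18, 15, 12, 12, 12, 11, 10, 10, 10, 9, 9, 9, 9, 0, 0, 0, 0, 0, 0, 0, 0, 0, 0, 0, 0] [0, 0, 0, 3, 6, 7, 8, 9, 18, 18, 27, 27, 27, 27, 27]) (.cons (.leaf 27 [18, 18, 15, 12, 12, 12, 11, 10, 10, 10, 9, 9, 9, 9, 0, 0, 0, 0, 0, 0, 0, 0, 0, 0, 0, 0] [0, 0, 0, 3, 6, 7, 8, 9, 18, 18, 27, 27, 27, 27, 27]) (.cons (.leaf 27 [18, 18, 15, 12, 12, 12, 11, 10, 10, 10, 9, 9, 9, 9, 0, 0, 0, 0, 0, 0, 0, 0, 0, 0, 0, 0] [0, 0, 0, 3, 6, 7, 8, 9, 18, 18, 27, 27, 27, 27, 27]) (.cons (.node 15 (.leaf 2 [1, 1, 1, 1, 1, 1, 1, 1, 1, 1, 1, 1, 1, 1, 1, 1, 1, 1, 1, 0, 0, 0, 0, 0, 0] [0, 0, 0, 0, 0, 0, 0, 0, 0, 0, 0, 1, 1, 1, 1]) (.cons (.leaf 9 [9, 6, 3, 3, 3, 2, 1, 1, 1, 0, 0, 0, 0, 0, 0, 0, 0, 0, 0, 0, 0, 0, 0, 0] [0, 0, 0, 3, 6, 7, 8, 9, 9, 9, 9, 9, 9, 9, 9]) (.cons (.leaf 9 [9, 6, 3, 3, 3, 2, 1, 1, 1, 0, 0, 0, 0, 0, 0, 0, 0, 0, 0, 0, 0, 0, 0, 0] [0, 0, 0, 3, 6, 7, 8, 9, 9, 9, 9, 9, 9, 9, 9]) (.cons (.leaf 3 [2, 2, 1, 1, 1, 1, 1, 1, 1, 1, 1, 1, 1, 1, 0, 0, 0, 0, 0, 0, 0, 0, 0, 0] [0, 0, 0, 1, 1, 1, 1, 1, 2, 2, 2, 3, 3, 3, 3]) (.cons (.leaf 27 [18, 18, 15, 12, 12, 11, 10, 10, 10, 9, 9, 9, 9, 9, 0, 0, 0, 0, 0, 0, 0, 0, 0, 0] [0, 0, 0, 3, 6, 7, 8, 9, 18, 18, 18, 27, 27, 27, 27]) (.cons (.leaf 27 [18, 18, 15, 12, 12, 11, 10, 10, 10, 9, 9, 9, 9, 9, 0, 0, 0, 0, 0, 0, 0, 0, 0, 0] [0, 0, 0, 3, 6, 7, 8, 9, 18, 18, 18, 27, 27, 27, 27]) (.cons (.leaf 27 [18, 18, 15, 12, 12, 11, 10, 10, 10, 9, 9, 9, 9, 9, 0, 0, 0, 0, 0, 0, 0, 0, 0, 0] [0, 0, 0, 3, 6, 7, 8, 9, 18, 18, 18, 27, 27, 27, 27]) (.cons (.leaf 18 [12, 12, 10, 8, 8, 8, 7, 7, 7, 6, 6, 6, 6, 6, 0, 0, 0, 0, 0, 0, 0, 0, 0, 0] [0, 0, 0, 2, 4, 4, 5, 6, 12, 12, 12, 18, 18, 18, 18]) (.cons (.leaf 9 [6, 6, 5, 4, 4, 4, 4, 3, 3, 3, 3, 3, 3, 3, 0, 0, 0, 0, 0, 0, 0, 0, 0, 0] [0, 0, 0, 1, 2, 2, 3, 3, 6, 6, 6, 9, 9, 9, 9]) (.cons (.leaf 27 [18, 18, 15, 12, 12, 12, 11, 10, 10, 9, 9, 9, 9, 9, 0, 0, 0, 0, 0, 0, 0, 0, 0, 0] [0, 0, 0, 3, 6, 7, 8, 9, 18, 18, 18, 27, 27, 27, 27]) (.cons (.leaf 27 [18, 18, 15, 12, 12, 12, 11, 10, 10, 9, 9, 9, 9, 9, 0, 0, 0, 0, 0, 0, 0, 0, 0, 0] [0, 0, 0, 3, 6, 7, 8, 9, 18, 18, 18, 27, 27, 27, 27]) (.cons (.leaf 27 [18, 18, 15, 12, 12, 12, 11, 10, 10, 10, 9, 9, 9, 0, 0, 0, 0, 0, 0, 0, 0, 0, 0, 0] [0, 0, 0, 3, 6, 7, 8, 9, 27, 27, 27, 27, 27, 27, 27]) (.cons (.leaf 27 [18, 18, 15, 12, 12, 12, 11, 10, 10, 10, 9, 9, 9, 0, 0, 0, 0, 0, 0, 0, 0, 0, 0, 0] [0, 0, 0, 3, 6, 7, 8, 9, 27, 27, 27, 27, 27, 27, 27]) (.cons (.leaf 27 [18, 18, 15, 12, 12, 12, 11, 10, 10, 10, 9, 9, 9, 0, 0, 0, 0, 0, 0, 0, 0, 0, 0, 0] [0, 0, 0, 3, 6, 7, 8, 9, 27, 27, 27, 27, 27, 27, 27]) (.cons (.leaf 27 [18, 18, 15, 12, 12, 12, 11, 10, 10, 10, 9, 9, 9, 0, 0, 0, 0, 0, 0, 0, 0, 0, 0, 0] [0, 0, 0, 3, 6, 7, 8, 9, 27, 27, 27, 27, 27, 27, 27]) (.cons (.leaf 27 [18, 18, 15, 12, 12, 12, 11, 10, 10, 10, 9, 9, 9, 9, 0, 0, 0, 0, 0, 0, 0, 0, 0, 0] [0, 0, 0, 3, 6, 7, 8, 9, 18, 18, 18, 27, 27, 27, 27]) (.cons (.leaf 27 [18, 18, 15, 12, 12, 12, 11, 10, 10, 10, 9, 9, 9, 9, 0, 0, 0, 0, 0, 0, 0, 0, 0, 0] [0, 0, 0, 3, 6, 7, 8, 9, 18, 27, 27, 27, 27, 27, 27]) (.cons (.leaf 27 [18, 18, 15, 12, 12, 12, 11, 10, 10, 10, 9, 9, 9, 9, 0, 0, 0, 0, 0, 0, 0, 0, 0, 0] [0, 0, 0, 3, 6, 7, 8, 9, 18, 27, 27, 27, 27, 27, 27]) (.cons (.leaf 27 [18, 18, 15, 12, 12, 12, 11, 10, 10, 10, 9, 9, 9, 9, 0, 0, 0, 0, 0, 0, 0, 0, 0, 0] [0, 0, 0, 3, 6, 7, 8, 9, 18, 27, 27, 27, 27, 27, 27]) (.cons (.leaf 2 [1, 1, 1, 1, 1, 1, 1, 1, 1, 1, 1, 1, 1, 1, 1, 1, 1, 1, 0, 0, 0, 0, 0, 0] [0, 0, 0, 0, 0, 0, 0, 0, 0, 0, 0, 1, 1, 1, 1]) (.cons (.leaf 27 [18, 18, 15, 12, 12, 12, 11, 10, 10, 10, 9, 9, 9, 9, 9, 0, 0, 0, 0, 0, 0, 0, 0, 0] [0, 0, 0, 3, 6, 7, 8, 9, 18, 18, 18, 27, 27, 27, 27]) (.cons (.leaf 27 [18, 18, 15, 12, 12, 12, 11, 10, 10, 10, 9, 9, 9, 9, 9, 0, 0, 0, 0, 0, 0, 0, 0, 0] [0, 0, 0, 3, 6, 7, 8, 9, 18, 18, 18, 27, 27, 27, 27]) (.cons (.leaf 27 [18, 18, 15, 12, 12, 12, 11, 10, 10, 10, 9, 9, 9, 9, 9, 0, 0, 0, 0, 0, 0, 0, 0, 0] [0, 0, 0, 3, 6, 7, 8, 9, 18, 18, 18, 27, 27, 27, 27]) (.cons .nil (.cons .nil (.cons .nil .nil)))))))))))))))))))))))))) (.cons (.node 15 (.leaf 2 [1, 1, 1, 1, 1, 1, 1, 1, 1, 1, 1, 1, 1, 1, 1, 1, 1, 1, 1, 0, 0, 0, 0, 0, 0] [0, 0, 0, 0, 0, 0, 0, 0, 0, 0, 0, 1, 1, 1, 1]) (.cons (.leaf 9 [9, 6, 3, 3, 3, 2, 1, 1, 1, 0, 0, 0, 0, 0, 0, 0, 0, 0, 0, 0, 0, 0, 0, 0] [0, 0, 0, 3, 6, 7, 8, 9, 9, 9, 9, 9, 9, 9, 9]) (.cons (.leaf 9 [9, 6, 3, 3, 3, 2, 1, 1, 1, 0, 0, 0, 0, 0, 0, 0, 0, 0, 0, 0, 0, 0, 0, 0] [0, 0, 0, 3, 6, 7, 8, 9, 9, 9, 9, 9, 9, 9, 9]) (.cons (.leaf 3 [2, 2, 1, 1, 1, 1, 1, 1, 1, 1, 1, 1, 1, 1, 0, 0, 0, 0, 0, 0, 0, 0, 0, 0] [0, 0, 0, 1, 1, 1, 1, 1, 2, 2, 2, 3, 3, 3, 3]) (.cons (.leaf 27 [18, 18, 15, 12, 12, 11, 10, 10, 10, 9, 9, 9, 9, 9, 0, 0, 0, 0, 0, 0, 0, 0, 0, 0] [0, 0, 0, 3, 6, 7, 8, 9, 18, 18, 18, 27, 27, 27, 27]) (.cons (.leaf 27 [18, 18, 15, 12, 12, 11, 10, 10, 10, 9, 9, 9, 9, 9, 0, 0, 0, 0, 0, 0, 0, 0, 0, 0] [0, 0, 0, 3, 6, 7, 8, 9, 18, 18, 18, 27, 27, 27, 27]) (.cons (.leaf 27 [18, 18, 15, 12, 12, 11, 10, 10, 10, 9, 9, 9, 9, 9, 0, 0, 0, 0, 0, 0, 0, 0, 0, 0] [0, 0, 0, 3, 6, 7, 8, 9, 18, 18, 18, 27, 27, 27, 27]) (.cons (.leaf 18 [12, 12, 10, 8, 8, 8, 7, 7, 7, 6, 6, 6, 6, 6, 0, 0, 0, 0, 0, 0, 0, 0, 0, 0] [0, 0, 0, 2, 4, 4, 5, 6, 12, 12, 12, 18, 18, 18, 18]) (.cons (.leaf 9 [6, 6, 5, 4, 4, 4, 4, 3, 3, 3, 3, 3, 3, 3, 0, 0, 0, 0, 0, 0, 0, 0, 0, 0] [0, 0, 0, 1, 2, 2, 3, 3, 6, 6, 6, 9, 9, 9, 9]) (.cons (.leaf 27 [18, 18, 15, 12, 12, 12, 11, 10, 10, 9, 9, 9, 9, 9, 0, 0, 0, 0, 0, 0, 0, 0, 0, 0] [0, 0, 0, 3, 6, 7, 8, 9, 18, 18, 18, 27, 27, 27, 27]) (.cons (.leaf 27 [18, 18, 15, 12, 12, 12, 11, 10, 10, 9, 9, 9, 9, 9, 0, 0, 0, 0, 0, 0, 0, 0, 0, 0] [0, 0, 0, 3, 6, 7, 8, 9, 18, 18, 18, 27, 27, 27, 27]) (.cons (.leaf 27 [18, 18, 15, 12, 12, 12, 11, 10, 10, 10, 9, 9, 9, 0, 0, 0, 0, 0, 0, 0, 0, 0, 0, 0] [0, 0, 0, 3, 6, 7, 8, 9, 27, 27, 27, 27, 27, 27, 27]) (.cons (.leaf 27 [18, 18, 15, 12, 12, 12, 11, 10, 10, 10, 9, 9, 9, 0, 0, 0, 0, 0, 0, 0, 0, 0, 0, 0] [0, 0, 0, 3, 6, 7, 8, 9, 27, 27, 27, 27, 27, 27, 27]) (.cons (.leaf 27 [18, 18, 15, 12, 12, 12, 11, 10, 10, 10, 9, 9, 9, 0, 0, 0, 0, 0, 0, 0, 0, 0, 0, 0] [0, 0, 0, 3, 6, 7, 8, 9, 27, 27, 27, 27, 27, 27, 27]) (.cons (.leaf 27 [18, 18, 15, 12, 12, 12, 11, 10, 10, 10, 9, 9, 9, 0, 0, 0, 0, 0, 0, 0, 0, 0, 0, 0] [0, 0, 0, 3, 6, 7, 8, 9, 27, 27, 27, 27, 27, 27, 27]) (.cons (.leaf 27 [18, 18, 15, 12, 12, 12, 11, 10, 10, 10, 9, 9, 9, 9, 0, 0, 0, 0, 0, 0, 0, 0, 0, 0] [0, 0, 0, 3, 6, 7, 8, 9, 18, 18, 18, 27, 27, 27, 27]) (.cons (.leaf 27 [18, 18, 15, 12, 12, 12, 11, 10, 10, 10, 9, 9, 9, 9, 0, 0, 0, 0, 0, 0, 0, 0, 0, 0] [0, 0, 0, 3, 6, 7, 8, 9, 18, 27, 27, 27, 27, 27, 27]) (.cons (.leaf 27 [18, 18, 15, 12, 12, 12, 11, 10, 10, 10, 9, 9, 9, 9, 0, 0, 0, 0, 0, 0, 0, 0, 0, 0] [0, 0, 0, 3, 6, 7, 8, 9, 18, 27, 27, 27, 27, 27, 27]) (.cons (.leaf 27 [18, 18, 15, 12, 12, 12, 11, 10, 10, 10, 9, 9, 9, 9, 0, 0, 0, 0, 0, 0, 0, 0, 0, 0] [0, 0, 0, 3, 6, 7, 8, 9, 18, 27, 27, 27, 27, 27, 27]) (.cons (.leaf 2 [1, 1, 1, 1, 1, 1, 1, 1, 1, 1, 1, 1, 1, 1, 1, 1, 1, 1, 0, 0, 0, 0, 0, 0] [0, 0, 0, 0, 0, 0, 0, 0, 0, 0, 0, 1, 1, 1, 1]) (.cons (.leaf 27 [18, 18, 15, 12, 12, 12, 11, 10, 10, 10, 9, 9, 9, 9, 9, 0, 0, 0, 0, 0, 0, 0, 0, 0] [0, 0, 0, 3, 6, 7, 8, 9, 18, 18, 18, 27, 27, 27, 27]) (.cons (.leaf 27 [18, 18, 15, 12, 12, 12, 11, 10, 10, 10, 9, 9, 9, 9, 9, 0, 0, 0, 0, 0, 0, 0, 0, 0] [0, 0, 0, 3, 6, 7, 8, 9, 18, 18, 18, 27, 27, 27, 27]) (.cons (.leaf 27 [18, 18, 15, 12, 12, 12, 11, 10, 10, 10, 9, 9, 9, 9, 9, 0, 0, 0, 0, 0, 0, 0, 0, 0] [0, 0, 0, 3, 6, 7, 8, 9, 18, 18, 18, 27, 27, 27, 27]) (.cons .nil (.cons .nil (.cons .nil .nil)))))))))))))))))))))))))) (.cons (.leaf 27 [18, 18, 15, 12, 12, 12, 11, 10, 10, 10, 9, 9, 9, 9, 9, 0, 0, 0, 0, 0, 0, 0, 0, 0, 0, 0] [0, 0, 0, 3, 6, 7, 8, 9, 18, 18, 27, 27, 27, 27, 27]) (.cons (.leaf 27 [18, 18, 15, 12, 12, 12, 11, 10, 10, 10, 9, 9, 9, 9, 9, 0, 0, 0, 0, 0, 0, 0, 0, 0, 0, 0] [0, 0, 0, 3, 6, 7, 8, 9, 18, 18, 27, 27, 27, 27, 27]) (.cons (.leaf 27 [18, 18, 15, 12, 12, 12, 11, 10, 10, 10, 9, 9, 9, 9, 9, 0, 0, 0, 0, 0, 0, 0, 0, 0, 0, 0] [0, 0, 0, 3, 6, 7, 8, 9, 18, 18, 27, 27, 27, 27, 27]) (.cons (.leaf 2 [1, 1, 1, 1, 1, 1, 1, 1, 1, 1, 1, 1, 1, 1, 1, 1, 1, 1, 1, 1, 0, 0, 0, 0, 0, 0] [0, 0, 0, 0, 0, 0, 0, 0, 0, 0, 0, 1, 1, 1, 1]) (.cons (.leaf 27 [18, 18, 15, 12, 12, 12, 11, 10, 10, 10, 9, 9, 9, 9, 9, 0, 0, 0, 0, 0, 0, 0, 0, 0, 0, 0] [0, 0, 0, 3, 6, 7, 8, 9, 18, 18, 27, 27, 27, 27, 27]) (.cons (.leaf 27 [18, 18, 15, 12, 12, 12, 11, 10, 10, 10, 9, 9, 9, 9, 9, 0, 0, 0, 0, 0, 0, 0, 0, 0, 0, 0] [0, 0, 0, 3, 6, 7, 8, 9, 18, 18, 27, 27, 27, 27, 27]) (.cons (.leaf 27 [18, 18, 15, 12, 12, 12, 11, 10, 10, 10, 9, 9, 9, 9, 9, 0, 0, 0, 0, 0, 0, 0, 0, 0, 0, 0] [0, 0, 0, 3, 6, 7, 8, 9, 18, 18, 27, 27, 27, 27, 27]) (.cons .nil (.cons .nil (.cons .nil .nil)))))))))))))))))))))))))))) (.cons (.leaf 2 [1, 1, 1, 1, 1, 1, 1, 1, 1, 1, 1, 1, 1, 1, 1, 1, 1, 1, 1, 1, 1, 0, 0, 0, 0, 0, 0, 0] [0, 0, 0, 0, 0, 0, 0, 0, 0, 0, 0, 1, 1, 1, 2]) (.cons (.leaf 2 [1, 1, 1, 1, 1, 1, 1, 1, 1, 1, 1, 1, 1, 1, 1, 1, 1, 1, 1, 1, 1, 0, 0, 0, 0, 0, 0, 0] [0, 0, 0, 0, 0, 0, 0, 0, 0, 0, 0, 1, 1, 1, 2]) (.cons (.leaf 2 [1, 1, 1, 1, 1, 1, 1, 1, 1, 1, 1, 1, 1, 1, 1, 1, 1, 1, 1, 1, 1, 0, 0, 0, 0, 0, 0, 0] [0, 0, 0, 0, 0, 0, 0, 0, 0, 0, 0, 1, 1, 1, 2]) (.cons .nil (.cons .nil (.cons .nil .nil)))))))))))))))))))))))))))))) (.cons (.node 15 (.leaf 2 [1, 1, 1, 1, 1, 1, 1, 1, 1, 1, 1, 1, 1, 1, 1, 1, 1, 1, 1, 1, 1, 0, 0, 0, 0, 0, 0, 0, 0] [0, 0, 0, 0, 0, 0, 0, 0, 0, 0, 0, 1, 1, 1, 2]) (.cons (.leaf 9 [9, 6, 3, 3, 3, 2, 1, 1, 1, 0, 0, 0, 0, 0, 0, 0, 0, 0, 0, 0, 0, 0, 0, 0, 0, 0, 0, 0] [0, 0, 0, 3, 6, 7, 8, 9, 9, 9, 9, 9, 9, 9, 9]) (.cons (.leaf 9 [9, 6, 3, 3, 3, 2, 1, 1, 1, 0, 0, 0, 0, 0, 0, 0, 0, 0, 0, 0, 0, 0, 0, 0, 0, 0, 0, 0] [0, 0, 0, 3, 6, 7, 8, 9, 9, 9, 9, 9, 9, 9, 9]) (.cons (.leaf 3 [2, 2, 1, 1, 1, 1, 1, 1, 1, 1, 1, 1, 1, 0, 0, 0, 0, 0, 0, 0, 0, 0, 0, 0, 0, 0, 0, 0] [0, 0, 0, 1, 1, 1, 1, 1, 3, 3, 3, 3, 3, 3, 3]) (.cons (.leaf 27 [18, 18, 15, 12, 12, 11, 10, 10, 10, 9, 9, 9, 9, 9, 0, 0, 0, 0, 0, 0, 0, 0, 0, 0, 0, 0, 0, 0] [0, 0, 0, 3, 6, 7, 8, 9, 18, 18, 27, 27, 27, 27, 27]) (.cons (.leaf 27 [18, 18, 15, 12, 12, 11, 10, 10, 10, 9, 9, 9, 9, 9, 0, 0, 0, 0, 0, 0, 0, 0, 0, 0, 0, 0, 0, 0] [0, 0, 0, 3, 6, 7, 8, 9, 18, 18, 27, 27, 27, 27, 27]) (.cons (.leaf 27 [18, 18, 15, 12, 12, 11, 10, 10, 10, 9, 9, 9, 9, 9, 0, 0, 0, 0, 0, 0, 0, 0, 0, 0, 0, 0, 0, 0] [0, 0, 0, 3, 6, 7, 8, 9, 18, 18, 27, 27, 27, 27, 27]) (.cons (.leaf 18 [12, 12, 10, 8, 8, 8, 7, 7, 7, 6, 6, 6, 6, 6, 0, 0, 0, 0, 0, 0, 0, 0, 0, 0, 0, 0, 0, 0] [0, 0, 0, 2, 4, 4, 5, 6, 12, 12, 18, 18, 18, 18, 18]) (.cons (.leaf 9 [6, 6, 5, 4, 4, 4, 4, 3, 3, 3, 3, 3, 3, 3, 0, 0, 0, 0, 0, 0, 0, 0, 0, 0, 0, 0, 0, 0] [0, 0, 0, 1, 2, 2, 3, 3, 6, 6, 9, 9, 9, 9, 9]) (.cons (.leaf 27 [18, 18, 15, 12, 12, 12, 11, 10, 10, 9, 9, 9, 9, 9, 0, 0, 0, 0, 0, 0, 0, 0, 0, 0, 0, 0, 0, 0] [0, 0, 0, 3, 6, 7, 8, 9, 18, 18, 27, 27, 27, 27, 27]) (.cons (.leaf 27 [18, 18, 15, 12, 12, 12, 11, 10, 10, 9, 9, 9, 9, 9, 0, 0, 0, 0, 0, 0, 0, 0, 0, 0, 0, 0, 0, 0] [0, 0, 0, 3, 6, 7, 8, 9, 18, 18, 27, 27, 27, 27, 27]) (.cons (.leaf 27 [18, 18, 15, 12, 12, 12, 11, 10, 10, 10, 9, 9, 9, 9, 0, 0, 0, 0, 0, 0, 0, 0, 0, 0, 0, 0, 0, 0] [0, 0, 0, 3, 6, 7, 8, 9, 18, 18, 27, 27, 27, 27, 27]) (.cons (.leaf 27 [18, 18, 15, 12, 12, 12, 11, 10, 10, 10, 9, 9, 9, 9, 0, 0, 0, 0, 0, 0, 0, 0, 0, 0, 0, 0, 0, 0] [0, 0, 0, 3, 6, 7, 8, 9, 18, 18, 27, 27, 27, 27, 27]) (.cons (.leaf 27 [18, 18, 15, 12, 12, 12, 11, 10, 10, 10, 9, 9, 9, 9, 0, 0, 0, 0, 0, 0, 0, 0, 0, 0, 0, 0, 0, 0] [0, 0, 0, 3, 6, 7, 8, 9, 18, 18, 27, 27, 27, 27, 27]) (.cons (.leaf 27 [18, 18, 15, 12, 12, 12, 11, 10, 10, 10, 9, 9, 9, 9, 0, 0, 0, 0, 0, 0, 0, 0, 0, 0, 0, 0, 0, 0] [0, 0, 0, 3, 6, 7, 8, 9, 18, 18, 27, 27, 27, 27, 27]) (.cons (.leaf 27 [18, 18, 15, 12, 12, 12, 11, 10, 10, 10, 9, 9, 9, 9, 0, 0, 0, 0, 0, 0, 0, 0, 0, 0, 0, 0, 0, 0] [0, 0, 0, 3, 6, 7, 8, 9, 18, 18, 27, 27, 27, 27, 27]) (.cons (.node 15 (.leaf 2 [1, 1, 1, 1, 1, 1, 1, 1, 1, 1, 1, 1, 1, 1, 1, 1, 1, 1, 1, 0, 0, 0, 0, 0, 0, 0, 0] [0, 0, 0, 0, 0, 0, 0, 0, 0, 0, 0, 1, 1, 1, 2]) (.cons (.leaf 9 [9, 6, 3, 3, 3, 2, 1, 1, 1, 0, 0, 0, 0, 0, 0, 0, 0, 0, 0, 0, 0, 0, 0, 0, 0, 0] [0, 0, 0, 3, 6, 7, 8, 9, 9, 9, 9, 9, 9, 9, 9]) (.cons (.leaf 9 [9, 6, 3, 3, 3, 2, 1, 1, 1, 0, 0, 0, 0, 0, 0, 0, 0, 0, 0, 0, 0, 0, 0, 0, 0, 0] [0, 0, 0, 3, 6, 7, 8, 9, 9, 9, 9, 9, 9, 9, 9]) (.cons (.leaf 3 [2, 2, 1, 1, 1, 1, 1, 1, 1, 1, 1, 1, 1, 1, 0, 0, 0, 0, 0, 0, 0, 0, 0, 0, 0, 0] [0, 0, 0, 1, 1, 1, 1, 1, 2, 2, 2, 3, 3, 3, 3]) (.cons (.leaf 27 [18, 18, 15, 12, 12, 11, 10, 10, 10, 9, 9, 9, 9, 0, 0, 0, 0, 0, 0, 0, 0, 0, 0, 0, 0, 0] [0, 0, 0, 3, 6, 7, 8, 9, 27, 27, 27, 27, 27, 27, 27]) (.cons (.leaf 27 [18, 18, 15, 12, 12, 11, 10, 10, 10, 9, 9, 9, 9, 0, 0, 0, 0, 0, 0, 0, 0, 0, 0, 0, 0, 0] [0, 0, 0, 3, 6, 7, 8, 9, 27, 27, 27, 27, 27, 27, 27]) (.cons (.leaf 27 [18, 18, 15, 12, 12, 11, 10, 10, 10, 9, 9, 9, 9, 0, 0, 0, 0, 0, 0, 0, 0, 0, 0, 0, 0, 0] [0, 0, 0, 3, 6, 7, 8, 9, 27, 27, 27, 27, 27, 27, 27]) (.cons (.leaf 18 [12, 12, 10, 8, 8, 8, 7, 7, 7, 6, 6, 6, 6, 0, 0, 0, 0, 0, 0, 0, 0, 0, 0, 0, 0, 0] [0, 0, 0, 2, 4, 4, 5, 6, 18, 18, 18, 18, 18, 18, 18]) (.cons (.leaf 9 [6, 6, 5, 4, 4, 4, 4, 3, 3, 3, 3, 3, 3, 0, 0, 0, 0, 0, 0, 0, 0, 0, 0, 0, 0, 0] [0, 0, 0, 1, 2, 2, 3, 3, 9, 9, 9, 9, 9, 9, 9]) (.cons (.leaf 27 [18, 18, 15, 12, 12, 12, 11, 10, 10, 9, 9, 9, 9, 0, 0, 0, 0, 0, 0, 0, 0, 0, 0, 0, 0, 0] [0, 0, 0, 3, 6, 7, 8, 9, 27, 27, 27, 27, 27, 27, 27]) (.cons (.leaf 27 [18, 18, 15, 12, 12, 12, 11, 10, 10, 9, 9, 9, 9, 0, 0, 0, 0, 0, 0, 0, 0, 0, 0, 0, 0, 0] [0, 0, 0, 3, 6, 7, 8, 9, 27, 27, 27, 27, 27, 27, 27]) (.cons (.leaf 27 [18, 18, 15, 12, 12, 12, 11, 10, 10, 10, 9, 9, 9, 9, 0, 0, 0, 0, 0, 0, 0, 0, 0, 0, 0, 0] [0, 0, 0, 3, 6, 7, 8, 9, 18, 18, 18, 27, 27, 27, 27]) (.cons (.leaf 27 [18, 18, 15, 12, 12, 12, 11, 10, 10, 10, 9, 9, 9, 9, 0, 0, 0, 0, 0, 0, 0, 0, 0, 0, 0, 0] [0, 0, 0, 3, 6, 7, 8, 9, 18, 18, 18, 27, 27, 27, 27]) (.cons (.leaf 27 [18, 18, 15, 12, 12, 12, 11, 10, 10, 10, 9, 9, 9, 0, 0, 0, 0, 0, 0, 0, 0, 0, 0, 0, 0, 0] [0, 0, 0, 3, 6, 7, 8, 9, 27, 27, 27, 27, 27, 27, 27]) (.cons (.leaf 27 [18, 18, 15, 12, 12, 12, 11, 10, 10, 10, 9, 9, 9, 0, 0, 0, 0, 0, 0, 0, 0, 0, 0, 0, 0, 0] [0, 0, 0, 3, 6, 7, 8, 9, 27, 27, 27, 27, 27, 27, 27]) (.cons (.leaf 27 [18, 18, 15, 12, 12, 12, 11, 10, 10, 10, 9, 9, 9, 9, 0, 0, 0, 0, 0, 0, 0, 0, 0, 0, 0, 0] [0, 0, 0, 3, 6, 7, 8, 9, 18, 18, 18, 27, 27, 27, 27]) (.cons (.leaf 27 [18, 18, 15, 12, 12, 12, 11, 10, 10, 10, 9, 9, 9, 9, 0, 0, 0, 0, 0, 0, 0, 0, 0, 0, 0, 0] [0, 0, 0, 3, 6, 7, 8, 9, 18, 27, 27, 27, 27, 27, 27]) (.cons (.leaf 27 [18, 18, 15, 12, 12, 12, 11, 10, 10, 10, 9, 9, 9, 9, 0, 0, 0, 0, 0, 0, 0, 0, 0, 0, 0, 0] [0, 0, 0, 3, 6, 7, 8, 9, 18, 27, 27, 27, 27, 27, 27]) (.cons (.leaf 27 [18, 18, 15, 12, 12, 12, 11, 10, 10, 10, 9, 9, 9, 9, 0, 0, 0, 0, 0, 0, 0, 0, 0, 0, 0, 0] [0, 0, 0, 3, 6, 7, 8, 9, 18, 27, 27, 27, 27, 27, 27]) (.cons (.leaf 2 [1, 1, 1, 1, 1, 1, 1, 1, 1, 1, 1, 1, 1, 1, 1, 1, 1, 1, 0, 0, 0, 0, 0, 0, 0, 0] [0, 0, 0, 0, 0, 0, 0, 0, 0, 0, 0, 1, 1, 1, 2]) (.cons (.leaf 27 [18, 18, 15, 12, 12, 12, 11, 10, 10, 10, 9, 9, 9, 9, 9, 0, 0, 0, 0, 0, 0, 0, 0, 0, 0, 0] [0, 0, 0, 3, 6, 7, 8, 9, 18, 18, 18, 27, 27, 27, 27]) (.cons (.leaf 27 [18, 18, 15, 12, 12, 12, 11, 10, 10, 10, 9, 9, 9, 9, 9, 0, 0, 0, 0, 0, 0, 0, 0, 0, 0, 0] [0, 0, 0, 3, 6, 7, 8, 9, 18, 18, 18, 27, 27, 27, 27]) (.cons (.leaf 27 [18, 18, 15, 12, 12, 12, 11, 10, 10, 10, 9, 9, 9, 9, 9, 0, 0, 0, 0, 0, 0, 0, 0, 0, 0, 0] [0, 0, 0, 3, 6, 7, 8, 9, 18, 18, 18, 27, 27, 27, 27]) (.cons (.leaf 27 [18, 18, 15, 12, 12, 12, 11, 10, 10, 10, 9, 9, 9, 9, 9, 0, 0, 0, 0, 0, 0, 0, 0, 0, 0, 0] [0, 0, 0, 3, 6, 7, 8, 9, 18, 18, 18, 27, 27, 27, 27]) (.cons (.leaf 27 [18, 18, 15, 12, 12, 12, 11, 10, 10, 10, 9, 9, 9, 9, 9, 0, 0, 0, 0, 0, 0, 0, 0, 0, 0, 0] [0, 0, 0, 3, 6, 7, 8, 9, 18, 18, 18, 27, 27, 27, 27]) (.cons .nil (.cons .nil (.cons .nil .nil)))))))))))))))))))))))))))) (.cons (.node 15 (.leaf 2 [1, 1, 1, 1, 1, 1, 1, 1, 1, 1, 1, 1, 1, 1, 1, 1, 1, 1, 1, 0, 0, 0, 0, 0, 0, 0, 0] [0, 0, 0, 0, 0, 0, 0, 0, 0, 0, 0, 1, 1, 1, 2]) (.cons (.leaf 9 [9, 6, 3, 3, 3, 2, 1, 1, 1, 0, 0, 0, 0, 0, 0, 0, 0, 0, 0, 0, 0, 0, 0, 0, 0, 0] [0, 0, 0, 3, 6, 7, 8, 9, 9, 9, 9, 9, 9, 9, 9]) (.cons (.leaf 9 [9, 6, 3, 3, 3, 2, 1, 1, 1, 0, 0, 0, 0, 0, 0, 0, 0, 0, 0, 0, 0, 0, 0, 0, 0, 0] [0, 0, 0, 3, 6, 7, 8, 9, 9, 9, 9, 9, 9, 9, 9]) (.cons (.leaf 3 [2, 2, 1, 1, 1, 1, 1, 1, 1, 1, 1, 1, 1, 1, 0, 0, 0, 0, 0, 0, 0, 0, 0, 0, 0, 0] [0, 0, 0, 1, 1, 1, 1, 1, 2, 2, 2, 3, 3, 3, 3]) (.cons (.leaf 27 [18, 18, 15, 12, 12, 11, 10, 10, 10, 9, 9, 9, 9, 0, 0, 0, 0, 0, 0, 0, 0, 0, 0, 0, 0, 0] [0, 0, 0, 3, 6, 7, 8, 9, 27, 27, 27, 27, 27, 27, 27]) (.cons (.leaf 27 [18, 18, 15, 12, 12, 11, 10, 10, 10, 9, 9, 9, 9, 0, 0, 0, 0, 0, 0, 0, 0, 0, 0, 0, 0, 0] [0, 0, 0, 3, 6, 7, 8, 9, 27, 27, 27, 27, 27, 27, 27]) (.cons (.leaf 27 [18, 18, 15, 12, 12, 11, 10, 10, 10, 9, 9, 9, 9, 0, 0, 0, 0, 0, 0, 0, 0, 0, 0, 0, 0, 0] [0, 0, 0, 3, 6, 7, 8, 9, 27, 27, 27, 27, 27, 27, 27]) (.cons (.leaf 18 [12, 12, 10, 8, 8, 8, 7, 7, 7, 6, 6, 6, 6, 0, 0, 0, 0, 0, 0, 0, 0, 0, 0, 0, 0, 0] [0, 0, 0, 2, 4, 4, 5, 6, 18, 18, 18, 18, 18, 18, 18]) (.cons (.leaf 9 [6, 6, 5, 4, 4, 4, 4, 3, 3, 3, 3, 3, 3, 0, 0, 0, 0, 0, 0, 0, 0, 0, 0, 0, 0, 0] [0, 0, 0, 1, 2, 2, 3, 3, 9, 9, 9, 9, 9, 9, 9]) (.cons (.leaf 27 [18, 18, 15, 12, 12, 12, 11, 10, 10, 9, 9, 9, 9, 0, 0, 0, 0, 0, 0, 0, 0, 0, 0, 0, 0, 0] [0, 0, 0, 3, 6, 7, 8, 9, 27, 27, 27, 27, 27, 27, 27]) (.cons (.leaf 27 [18, 18, 15, 12, 12, 12, 11, 10, 10, 9, 9, 9, 9, 0, 0, 0, 0, 0, 0, 0, 0, 0, 0, 0, 0, 0] [0, 0, 0, 3, 6, 7, 8, 9, 27, 27, 27, 27, 27, 27, 27]) (.cons (.leaf 27 [18, 18, 15, 12, 12, 12, 11, 10, 10, 10, 9, 9, 9, 9, 0, 0, 0, 0, 0, 0, 0, 0, 0, 0, 0, 0] [0, 0, 0, 3, 6, 7, 8, 9, 18, 18, 18, 27, 27, 27, 27]) (.cons (.leaf 27 [18, 18, 15, 12, 12, 12, 11, 10, 10, 10, 9, 9, 9, 9, 0, 0, 0, 0, 0, 0, 0, 0, 0, 0, 0, 0] [0, 0, 0, 3, 6, 7, 8, 9, 18, 18, 18, 27, 27, 27, 27]) (.cons (.leaf 27 [18, 18, 15, 12, 12, 12, 11, 10, 10, 10, 9, 9, 9, 0, 0, 0, 0, 0, 0, 0, 0, 0, 0, 0, 0, 0] [0, 0, 0, 3, 6, 7, 8, 9, 27, 27, 27, 27, 27, 27, 27]) (.cons (.leaf 27 [18, 18, 15, 12, 12, 12, 11, 10, 10, 10, 9, 9, 9, 0, 0, 0, 0, 0, 0, 0, 0, 0, 0, 0, 0, 0] [0, 0, 0, 3, 6, 7, 8, 9, 27, 27, 27, 27, 27, 27, 27]) (.cons (.leaf 27 [18, 18, 15, 12, 12, 12, 11, 10, 10, 10, 9, 9, 9, 9, 0, 0, 0, 0, 0, 0, 0, 0, 0, 0, 0, 0] [0, 0, 0, 3, 6, 7, 8, 9, 18, 18, 18, 27, 27, 27, 27]) (.cons (.leaf 27 [18, 18, 15, 12, 12, 12, 11, 10, 10, 10, 9, 9, 9, 9, 0, 0, 0, 0, 0, 0, 0, 0, 0, 0, 0, 0] [0, 0, 0, 3, 6, 7, 8, 9, 18, 27, 27, 27, 27, 27, 27]) (.cons (.leaf 27 [18, 18, 15, 12, 12, 12, 11, 10, 10, 10, 9, 9, 9, 9, 0, 0, 0, 0, 0, 0, 0, 0, 0, 0, 0, 0] [0, 0, 0, 3, 6, 7, 8, 9, 18, 27, 27, 27, 27, 27, 27]) (.cons (.leaf 27 [18, 18, 15, 12, 12, 12, 11, 10, 10, 10, 9, 9, 9, 9, 0, 0, 0, 0, 0, 0, 0, 0, 0, 0, 0, 0] [0, 0, 0, 3, 6, 7, 8, 9, 18, 27, 27, 27, 27, 27, 27]) (.cons (.leaf 2 [1, 1, 1, 1, 1, 1, 1, 1, 1, 1, 1, 1, 1, 1, 1, 1, 1, 1, 0, 0, 0, 0, 0, 0, 0, 0] [0, 0, 0, 0, 0, 0, 0, 0, 0, 0, 0, 1, 1, 1, 2]) (.cons (.leaf 27 [18, 18, 15, 12, 12, 12, 11, 10, 10, 10, 9, 9, 9, 9, 9, 0, 0, 0, 0, 0, 0, 0, 0, 0, 0, 0] [0, 0, 0, 3, 6, 7, 8, 9, 18, 18, 18, 27, 27, 27, 27]) (.cons (.leaf 27 [18, 18, 15, 12, 12, 12, 11, 10, 10, 10, 9, 9, 9, 9, 9, 0, 0, 0, 0, 0, 0, 0, 0, 0, 0, 0] [0, 0, 0, 3, 6, 7, 8, 9, 18, 18, 18, 27, 27, 27, 27]) (.cons (.leaf 27 [18, 18, 15, 12, 12, 12, 11, 10, 10, 10, 9, 9, 9, 9, 9, 0, 0, 0, 0, 0, 0, 0, 0, 0, 0, 0] [0, 0, 0, 3, 6, 7, 8, 9, 18, 18, 18, 27, 27, 27, 27]) (.cons (.leaf 27 [18, 18, 15, 12, 12, 12, 11, 10, 10, 10, 9, 9, 9, 9, 9, 0, 0, 0, 0, 0, 0, 0, 0, 0, 0, 0] [0, 0, 0, 3, 6, 7, 8, 9, 18, 18, 18, 27, 27, 27, 27]) (.cons (.leaf 27 [18, 18, 15, 12, 12, 12, 11, 10, 10, 10, 9, 9, 9, 9, 9, 0, 0, 0, 0, 0, 0, 0, 0, 0, 0, 0] [0, 0, 0, 3, 6, 7, 8, 9, 18, 18, 18, 27, 27, 27, 27]) (.cons .nil (.cons .nil (.cons .nil .nil)))))))))))))))))))))))))))) (.cons (.leaf 27 [18, 18, 15, 12, 12, 12, 11, 10, 10, 10, 9, 9, 9, 9, 9, 0, 0, 0, 0, 0, 0, 0, 0, 0, 0, 0, 0, 0] [0, 0, 0, 3, 6, 7, 8, 9, 18, 18, 27, 27, 27, 27, 27]) (.cons (.leaf 27 [18, 18, 15, 12, 12, 12, 11, 10, 10, 10, 9, 9, 9, 9, 9, 0, 0, 0, 0, 0, 0, 0, 0, 0, 0, 0, 0, 0] [0, 0, 0, 3, 6, 7, 8, 9, 18, 18, 27, 27, 27, 27, 27]) (.cons (.leaf 27 [18, 18, 15, 12, 12, 12, 11, 10, 10, 10, 9, 9, 9, 9, 9, 0, 0, 0, 0, 0, 0, 0, 0, 0, 0, 0, 0, 0] [0, 0, 0, 3, 6, 7, 8, 9, 18, 18, 27, 27, 27, 27, 27]) (.cons (.leaf 2 [1, 1, 1, 1, 1, 1, 1, 1, 1, 1, 1, 1, 1, 1, 1, 1, 1, 1, 1, 1, 0, 0, 0, 0, 0, 0, 0, 0] [0, 0, 0, 0, 0, 0, 0, 0, 0, 0, 0, 1, 1, 1, 2]) (.cons (.leaf 27 [18, 18, 15, 12, 12, 12, 11, 10, 10, 10, 9, 9, 9, 9, 9, 0, 0, 0, 0, 0, 0, 0, 0, 0, 0, 0, 0, 0] [0, 0, 0, 3, 6, 7, 8, 9, 18, 18, 27, 27, 27, 27, 27]) (.cons (.leaf 27 [18, 18, 15, 12, 12, 12, 11, 10, 10, 10, 9, 9, 9, 9, 9, 0, 0, 0, 0, 0, 0, 0, 0, 0, 0, 0, 0, 0] [0, 0, 0, 3, 6, 7, 8, 9, 18, 18, 27, 27, 27, 27, 27]) (.cons (.leaf 27 [18, 18, 15, 12, 12, 12, 11, 10, 10, 10, 9, 9, 9, 9, 9, 0, 0, 0, 0, 0, 0, 0, 0, 0, 0, 0, 0, 0] [0, 0, 0, 3, 6, 7, 8, 9, 18, 18, 27, 27, 27, 27, 27]) (.cons (.leaf 27 [18, 18, 15, 12, 12, 12, 11, 10, 10, 10, 9, 9, 9, 9, 9, 0, 0, 0, 0, 0, 0, 0, 0, 0, 0, 0, 0, 0] [0, 0, 0, 3, 6, 7, 8, 9, 18, 18, 27, 27, 27, 27, 27]) (.cons (.leaf 27 [18, 18, 15, 12, 12, 12, 11, 10, 10, 10, 9, 9, 9, 9, 9, 0, 0, 0, 0, 0, 0, 0, 0, 0, 0, 0, 0, 0] [0, 0, 0, 3, 6, 7, 8, 9, 18, 18, 27, 27, 27, 27, 27]) (.cons .nil (.cons .nil (.cons .nil .nil)))))))))))))))))))))))))))))) (.cons (.node 15 (.leaf 6 [3, 3, 3, 3, 3, 3, 3, 3, 3, 3, 3, 3, 3, 3, 3, 3, 3, 3, 3, 3, 2, 1, 1, 0, 0, 0, 0, 0, 0] [0, 0, 0, 0, 0, 0, 0, 0, 0, 0, 0, 3, 3, 4, 5]) (.cons (.leaf 9 [9, 6, 3, 3, 3, 2, 1, 1, 1, 0, 0, 0, 0, 0, 0, 0, 0, 0, 0, 0, 0, 0, 0, 0, 0, 0, 0, 0] [0, 0, 0, 3, 6, 7, 8, 9, 9, 9, 9, 9, 9, 9, 9]) (.cons (.leaf 9 [9, 6, 3, 3, 3, 2, 1, 1, 1, 0, 0, 0, 0, 0, 0, 0, 0, 0, 0, 0, 0, 0, 0, 0, 0, 0, 0, 0] [0, 0, 0, 3, 6, 7, 8, 9, 9, 9, 9, 9, 9, 9, 9]) (.cons (.leaf 3 [2, 2, 1, 1, 1, 1, 1, 1, 1, 1, 1, 1, 1, 0, 0, 0, 0, 0, 0, 0, 0, 0, 0, 0, 0, 0, 0, 0] [0, 0, 0, 1, 1, 1, 1, 1, 3, 3, 3, 3, 3, 3, 3]) (.cons (.leaf 27 [18, 18, 15, 12, 12, 11, 10, 10, 10, 9, 9, 9, 9, 9, 0, 0, 0, 0, 0, 0, 0, 0, 0, 0, 0, 0, 0, 0] [0, 0, 0, 3, 6, 7, 8, 9, 18, 18, 27, 27, 27, 27, 27]) (.cons (.leaf 27 [18, 18, 15, 12, 12, 11, 10, 10, 10, 9, 9, 9, 9, 9, 0, 0, 0, 0, 0, 0, 0, 0, 0, 0, 0, 0, 0, 0] [0, 0, 0, 3, 6, 7, 8, 9, 18, 18, 27, 27, 27, 27, 27]) (.cons (.leaf 27 [18, 18, 15, 12, 12, 11, 10, 10, 10, 9, 9, 9, 9, 9, 0, 0, 0, 0, 0, 0, 0, 0, 0, 0, 0, 0, 0, 0] [0, 0, 0, 3, 6, 7, 8, 9, 18, 18, 27, 27, 27, 27, 27]) (.cons (.leaf 18 [12, 12, 10, 8, 8, 8, 7, 7, 7, 6, 6, 6, 6, 6, 0, 0, 0, 0, 0, 0, 0, 0, 0, 0, 0, 0, 0, 0] [0, 0, 0, 2, 4, 4, 5, 6, 12, 12, 18, 18, 18, 18, 18]) (.cons (.leaf 9 [6, 6, 5, 4, 4, 4, 4, 3, 3, 3, 3, 3, 3, 3, 0, 0, 0, 0, 0, 0, 0, 0, 0, 0, 0, 0, 0, 0] [0, 0, 0, 1, 2, 2, 3, 3, 6, 6, 9, 9, 9, 9, 9]) (.cons (.leaf 27 [18, 18, 15, 12, 12, 12, 11, 10, 10, 9, 9, 9, 9, 9, 0, 0, 0, 0, 0, 0, 0, 0, 0, 0, 0, 0, 0, 0] [0, 0, 0, 3, 6, 7, 8, 9, 18, 18, 27, 27, 27, 27, 27]) (.cons (.leaf 27 [18, 18, 15, 12, 12, 12, 11, 10, 10, 9, 9, 9, 9, 9, 0, 0, 0, 0, 0, 0, 0, 0, 0, 0, 0, 0, 0, 0] [0, 0, 0, 3, 6, 7, 8, 9, 18, 18, 27, 27, 27, 27, 27]) (.cons (.leaf 27 [18, 18, 15, 12, 12, 12, 11, 10, 10, 10, 9, 9, 9, 9, 0, 0, 0, 0, 0, 0, 0, 0, 0, 0, 0, 0, 0, 0] [0, 0, 0, 3, 6, 7, 8, 9, 18, 18, 27, 27, 27, 27, 27]) (.cons (.leaf 27 [18, 18, 15, 12, 12, 12, 11, 10, 10, 10, 9, 9, 9, 9, 0, 0, 0, 0, 0, 0, 0, 0, 0, 0, 0, 0, 0, 0] [0, 0, 0, 3, 6, 7, 8, 9, 18, 18, 27, 27, 27, 27, 27]) (.cons (.leaf 27 [18, 18, 15, 12, 12, 12, 11, 10, 10, 10, 9, 9, 9, 9, 0, 0, 0, 0, 0, 0, 0, 0, 0, 0, 0, 0, 0, 0] [0, 0, 0, 3, 6, 7, 8, 9, 18, 18, 27, 27, 27, 27, 27]) (.cons (.leaf 27 [18, 18, 15, 12, 12, 12, 11, 10, 10, 10, 9, 9, 9, 9, 0, 0, 0, 0, 0, 0, 0, 0, 0, 0, 0, 0, 0, 0] [0, 0, 0, 3, 6, 7, 8, 9, 18, 18, 27, 27, 27, 27, 27]) (.cons (.leaf 27 [18, 18, 15, 12, 12, 12, 11, 10, 10, 10, 9, 9, 9, 9, 0, 0, 0, 0, 0, 0, 0, 0, 0, 0, 0, 0, 0, 0] [0, 0, 0, 3, 6, 7, 8, 9, 18, 18, 27, 27, 27, 27, 27]) (.cons (.node 15 (.leaf 6 [3, 3, 3, 3, 3, 3, 3, 3, 3, 3, 3, 3, 3, 3, 3, 3, 3, 3, 2, 1, 1, 0, 0, 0, 0, 0, 0] [0, 0, 0, 0, 0, 0, 0, 0, 0, 0, 0, 3, 3, 4, 5]) (.cons (.leaf 9 [9, 6, 3, 3, 3, 2, 1, 1, 1, 0, 0, 0, 0, 0, 0, 0, 0, 0, 0, 0, 0, 0, 0, 0, 0, 0] [0, 0, 0, 3, 6, 7, 8, 9, 9, 9, 9, 9, 9, 9, 9]) (.cons (.leaf 9 [9, 6, 3, 3, 3, 2, 1, 1, 1, 0, 0, 0, 0, 0, 0, 0, 0, 0, 0, 0, 0, 0, 0, 0, 0, 0] [0, 0, 0, 3, 6, 7, 8, 9, 9, 9, 9, 9, 9, 9, 9]) (.cons (.leaf 3 [2, 2, 1, 1, 1, 1, 1, 1, 1, 1, 1, 1, 1, 1, 0, 0, 0, 0, 0, 0, 0, 0, 0, 0, 0, 0] [0, 0, 0, 1, 1, 1, 1, 1, 2, 2, 2, 3, 3, 3, 3]) (.cons (.leaf 27 [18, 18, 15, 12, 12, 11, 10, 10, 10, 9, 9, 9, 9, 9, 0, 0, 0, 0, 0, 0, 0, 0, 0, 0, 0, 0] [0, 0, 0, 3, 6, 7, 8, 9, 18, 18, 18, 27, 27, 27, 27]) (.cons (.leaf 27 [18, 18, 15, 12, 12, 11, 10, 10, 10, 9, 9, 9, 9, 9, 0, 0, 0, 0, 0, 0, 0, 0, 0, 0, 0, 0] [0, 0, 0, 3, 6, 7, 8, 9, 18, 18, 18, 27, 27, 27, 27]) (.cons (.leaf 27 [18, 18, 15, 12, 12, 11, 10, 10, 10, 9, 9, 9, 9, 9, 0, 0, 0, 0, 0, 0, 0, 0, 0, 0, 0, 0] [0, 0, 0, 3, 6, 7, 8, 9, 18, 18, 18, 27, 27, 27, 27]) (.cons (.leaf 18 [12, 12, 10, 8, 8, 8, 7, 7, 7, 6, 6, 6, 6, 6, 0, 0, 0, 0, 0, 0, 0, 0, 0, 0, 0, 0] [0, 0, 0, 2, 4, 4, 5, 6, 12, 12, 12, 18, 18, 18, 18]) (.cons (.leaf 9 [6, 6, 5, 4, 4, 4, 4, 3, 3, 3, 3, 3, 3, 3, 0, 0, 0, 0, 0, 0, 0, 0, 0, 0, 0, 0] [0, 0, 0, 1, 2, 2, 3, 3, 6, 6, 6, 9, 9, 9, 9]) (.cons (.leaf 27 [18, 18, 15, 12, 12, 12, 11, 10, 10, 9, 9, 9, 9, 9, 0, 0, 0, 0, 0, 0, 0, 0, 0, 0, 0, 0] [0, 0, 0, 3, 6, 7, 8, 9, 18, 18, 18, 27, 27, 27, 27]) (.cons (.leaf 27 [18, 18, 15, 12, 12, 12, 11, 10, 10, 9, 9, 9, 9, 9, 0, 0, 0, 0, 0, 0, 0, 0, 0, 0, 0, 0] [0, 0, 0, 3, 6, 7, 8, 9, 18, 18, 18, 27, 27, 27, 27]) (.cons (.leaf 27 [18, 18, 15, 12, 12, 12, 11, 10, 10, 10, 9, 9, 9, 0, 0, 0, 0, 0, 0, 0, 0, 0, 0, 0, 0, 0] [0, 0, 0, 3, 6, 7, 8, 9, 27, 27, 27, 27, 27, 27, 27]) (.cons (.leaf 27 [18, 18, 15, 12, 12, 12, 11, 10, 10, 10, 9, 9, 9, 0, 0, 0, 0, 0, 0, 0, 0, 0, 0, 0, 0, 0] [0, 0, 0, 3, 6, 7, 8, 9, 27, 27, 27, 27, 27, 27, 27]) (.cons (.leaf 27 [18, 18, 15, 12, 12, 12, 11, 10, 10, 10, 9, 9, 9, 9, 0, 0, 0, 0, 0, 0, 0, 0, 0, 0, 0, 0] [0, 0, 0, 3, 6, 7, 8, 9, 18, 18, 18, 27, 27, 27, 27]) (.cons (.leaf 27 [18, 18, 15, 12, 12, 12, 11, 10, 10, 10, 9, 9, 9, 9, 0, 0, 0, 0, 0, 0, 0, 0, 0, 0, 0, 0] [0, 0, 0, 3, 6, 7, 8, 9, 18, 18, 18, 27, 27, 27, 27]) (.cons (.leaf 27 [18, 18, 15, 12, 12, 12, 11, 10, 10, 10, 9, 9, 9, 9, 0, 0, 0, 0, 0, 0, 0, 0, 0, 0, 0, 0] [0, 0, 0, 3, 6, 7, 8, 9, 18, 18, 18, 27, 27, 27, 27]) (.cons (.leaf 27 [18, 18, 15, 12, 12, 12, 11, 10, 10, 10, 9, 9, 9, 9, 0, 0, 0, 0, 0, 0, 0, 0, 0, 0, 0, 0] [0, 0, 0, 3, 6, 7, 8, 9, 18, 27, 27, 27, 27, 27, 27]) (.cons (.leaf 27 [18, 18, 15, 12, 12, 12, 11, 10, 10, 10, 9, 9, 9, 9, 0, 0, 0, 0, 0, 0, 0, 0, 0, 0, 0, 0] [0, 0, 0, 3, 6, 7, 8, 9, 18, 27, 27, 27, 27, 27, 27]) (.cons (.leaf 27 [18, 18, 15, 12, 12, 12, 11, 10, 10, 10, 9, 9, 9, 9, 0, 0, 0, 0, 0, 0, 0, 0, 0, 0, 0, 0] [0, 0, 0, 3, 6, 7, 8, 9, 18, 27, 27, 27, 27, 27, 27]) (.cons (.leaf 4 [2, 2, 2, 2, 2, 2, 2, 2, 2, 2, 2, 2, 2, 2, 2, 2, 2, 2, 1, 1, 0, 0, 0, 0, 0, 0] [0, 0, 0, 0, 0, 0, 0, 0, 0, 0, 0, 2, 2, 2, 3]) (.cons (.leaf 27 [18, 18, 15, 12, 12, 12, 11, 10, 10, 10, 9, 9, 9, 9, 9, 0, 0, 0, 0, 0, 0, 0, 0, 0, 0, 0] [0, 0, 0, 3, 6, 7, 8, 9, 18, 18, 18, 27, 27, 27, 27]) (.cons (.leaf 27 [18, 18, 15, 12, 12, 12, 11, 10, 10, 10, 9, 9, 9, 9, 9, 0, 0, 0, 0, 0, 0, 0, 0, 0, 0, 0] [0, 0, 0, 3, 6, 7, 8, 9, 18, 18, 18, 27, 27, 27, 27]) (.cons (.leaf 27 [18, 18, 15, 12, 12, 12, 11, 10, 10, 10, 9, 9, 9, 9, 9, 0, 0, 0, 0, 0, 0, 0, 0, 0, 0, 0] [0, 0, 0, 3, 6, 7, 8, 9, 18, 18, 18, 27, 27, 27, 27]) (.cons (.leaf 27 [18, 18, 15, 12, 12, 12, 11, 10, 10, 10, 9, 9, 9, 9, 9, 0, 0, 0, 0, 0, 0, 0, 0, 0, 0, 0] [0, 0, 0, 3, 6, 7, 8, 9, 18, 18, 18, 27, 27, 27, 27]) (.cons (.leaf 27 [18, 18, 15, 12, 12, 12, 11, 10, 10, 10, 9, 9, 9, 9, 9, 0, 0, 0, 0, 0, 0, 0, 0, 0, 0, 0] [0, 0, 0, 3, 6, 7, 8, 9, 18, 18, 18, 27, 27, 27, 27]) (.cons .nil (.cons .nil (.cons .nil .nil)))))))))))))))))))))))))))) (.cons (.node 15 (.leaf 6 [3, 3, 3, 3, 3, 3, 3, 3, 3, 3, 3, 3, 3, 3, 3, 3, 3, 3, 2, 1, 1, 0, 0, 0, 0, 0, 0] [0, 0, 0, 0, 0, 0, 0, 0, 0, 0, 0, 3, 3, 4, 5]) (.cons (.leaf 9 [9, 6, 3, 3, 3, 2, 1, 1, 1, 0, 0, 0, 0, 0, 0, 0, 0, 0, 0, 0, 0, 0, 0, 0, 0, 0] [0, 0, 0, 3, 6, 7, 8, 9, 9, 9, 9, 9, 9, 9, 9]) (.cons (.leaf 9 [9, 6, 3, 3, 3, 2, 1, 1, 1, 0, 0, 0, 0, 0, 0, 0, 0, 0, 0, 0, 0, 0, 0, 0, 0, 0] [0, 0, 0, 3, 6, 7, 8, 9, 9, 9, 9, 9, 9, 9, 9]) (.cons (.leaf 3 [2, 2, 1, 1, 1, 1, 1, 1, 1, 1, 1, 1, 1, 1, 0, 0, 0, 0, 0, 0, 0, 0, 0, 0, 0, 0] [0, 0, 0, 1, 1, 1, 1, 1, 2, 2, 2, 3, 3, 3, 3]) (.cons (.leaf 27 [18, 18, 15, 12, 12, 11, 10, 10, 10, 9, 9, 9, 9, 9, 0, 0, 0, 0, 0, 0, 0, 0, 0, 0, 0, 0] [0, 0, 0, 3, 6, 7, 8, 9, 18, 18, 18, 27, 27, 27, 27]) (.cons (.leaf 27 [18, 18, 15, 12, 12, 11, 10, 10, 10, 9, 9, 9, 9, 9, 0, 0, 0, 0, 0, 0, 0, 0, 0, 0, 0, 0] [0, 0, 0, 3, 6, 7, 8, 9, 18, 18, 18, 27, 27, 27, 27]) (.cons (.leaf 27 [18, 18, 15, 12, 12, 11, 10, 10, 10, 9, 9, 9, 9, 9, 0, 0, 0, 0, 0, 0, 0, 0, 0, 0, 0, 0] [0, 0, 0, 3, 6, 7, 8, 9, 18, 18, 18, 27, 27, 27, 27]) (.cons (.leaf 18 [12, 12, 10, 8, 8, 8, 7, 7, 7, 6, 6, 6, 6, 6, 0, 0, 0, 0, 0, 0, 0, 0, 0, 0, 0, 0] [0, 0, 0, 2, 4, 4, 5, 6, 12, 12, 12, 18, 18, 18, 18]) (.cons (.leaf 9 [6, 6, 5, 4, 4, 4, 4, 3, 3, 3, 3, 3, 3, 3, 0, 0, 0, 0, 0, 0, 0, 0, 0, 0, 0, 0] [0, 0, 0, 1, 2, 2, 3, 3, 6, 6, 6, 9, 9, 9, 9]) (.cons (.leaf 27 [18, 18, 15, 12, 12, 12, 11, 10, 10, 9, 9, 9, 9, 9, 0, 0, 0, 0, 0, 0, 0, 0, 0, 0, 0, 0] [0, 0, 0, 3, 6, 7, 8, 9, 18, 18, 18, 27, 27, 27, 27]) (.cons (.leaf 27 [18, 18, 15, 12, 12, 12, 11, 10, 10, 9, 9, 9, 9, 9, 0, 0, 0, 0, 0, 0, 0, 0, 0, 0, 0, 0] [0, 0, 0, 3, 6, 7, 8, 9, 18, 18, 18, 27, 27, 27, 27]) (.cons (.leaf 27 [18, 18, 15, 12, 12, 12, 11, 10, 10, 10, 9, 9, 9, 0, 0, 0, 0, 0, 0, 0, 0, 0, 0, 0, 0, 0] [0, 0, 0, 3, 6, 7, 8, 9, 27, 27, 27, 27, 27, 27, 27]) (.cons (.leaf 27 [18, 18, 15, 12, 12, 12, 11, 10, 10, 10, 9, 9, 9, 0, 0, 0, 0, 0, 0, 0, 0, 0, 0, 0, 0, 0] [0, 0, 0, 3, 6, 7, 8, 9, 27, 27, 27, 27, 27, 27, 27]) (.cons (.leaf 27 [18, 18, 15, 12, 12, 12, 11, 10, 10, 10, 9, 9, 9, 9, 0, 0, 0, 0, 0, 0, 0, 0, 0, 0, 0, 0] [0, 0, 0, 3, 6, 7, 8, 9, 18, 18, 18, 27, 27, 27, 27]) (.cons (.leaf 27 [18, 18, 15, 12, 12, 12, 11, 10, 10, 10, 9, 9, 9, 9, 0, 0, 0, 0, 0, 0, 0, 0, 0, 0, 0, 0] [0, 0, 0, 3, 6, 7, 8, 9, 18, 18, 18, 27, 27, 27, 27]) (.cons (.leaf 27 [18, 18, 15, 12, 12, 12, 11, 10, 10, 10, 9, 9, 9, 9, 0, 0, 0, 0, 0, 0, 0, 0, 0, 0, 0, 0] [0, 0, 0, 3, 6, 7, 8, 9, 18, 18, 18, 27, 27, 27, 27]) (.cons (.leaf 27 [18, 18, 15, 12, 12, 12, 11, 10, 10, 10, 9, 9, 9, 9, 0, 0, 0, 0, 0, 0, 0, 0, 0, 0, 0, 0] [0, 0, 0, 3, 6, 7, 8, 9, 18, 27, 27, 27, 27, 27, 27]) (.cons (.leaf 27 [18, 18, 15, 12, 12, 12, 11, 10, 10, 10, 9, 9, 9, 9, 0, 0, 0, 0, 0, 0, 0, 0, 0, 0, 0, 0] [0, 0, 0, 3, 6, 7, 8, 9, 18, 27, 27, 27, 27, 27, 27]) (.cons (.leaf 27 [18, 18, 15, 12, 12, 12, 11, 10, 10, 10, 9, 9, 9, 9, 0, 0, 0, 0, 0, 0, 0, 0, 0, 0, 0, 0] [0, 0, 0, 3, 6, 7, 8, 9, 18, 27, 27, 27, 27, 27, 27]) (.cons (.leaf 4 [2, 2, 2, 2, 2, 2, 2, 2, 2, 2, 2, 2, 2, 2, 2, 2, 2, 2, 1, 1, 0, 0, 0, 0, 0, 0] [0, 0, 0, 0, 0, 0, 0, 0, 0, 0, 0, 2, 2, 2, 3]) (.cons (.leaf 27 [18, 18, 15, 12, 12, 12, 11, 10, 10, 10, 9, 9, 9, 9, 9, 0, 0, 0, 0, 0, 0, 0, 0, 0, 0, 0] [0, 0, 0, 3, 6, 7, 8, 9, 18, 18, 18, 27, 27, 27, 27]) (.cons (.leaf 27 [18, 18, 15, 12, 12, 12, 11, 10, 10, 10, 9, 9, 9, 9, 9, 0, 0, 0, 0, 0, 0, 0, 0, 0, 0, 0] [0, 0, 0, 3, 6, 7, 8, 9, 18, 18, 18, 27, 27, 27, 27]) (.cons (.leaf 27 [18, 18, 15, 12, 12, 12, 11, 10, 10, 10, 9, 9, 9, 9, 9, 0, 0, 0, 0, 0, 0, 0, 0, 0, 0, 0] [0, 0, 0, 3, 6, 7, 8, 9, 18, 18, 18, 27, 27, 27, 27]) (.cons (.leaf 27 [18, 18, 15, 12, 12, 12, 11, 10, 10, 10, 9, 9, 9, 9, 9, 0, 0, 0, 0, 0, 0, 0, 0, 0, 0, 0] [0, 0, 0, 3, 6, 7, 8, 9, 18, 18, 18, 27, 27, 27, 27]) (.cons (.leaf 27 [18, 18, 15, 12, 12, 12, 11, 10, 10, 10, 9, 9, 9, 9, 9, 0, 0, 0, 0, 0, 0, 0, 0, 0, 0, 0] [0, 0, 0, 3, 6, 7, 8, 9, 18, 18, 18, 27, 27, 27, 27]) (.cons .nil (.cons .nil (.cons .nil .nil)))))))))))))))))))))))))))) (.cons (.leaf 27 [18, 18, 15, 12, 12, 12, 11, 10, 10, 10, 9, 9, 9, 9, 9, 0, 0, 0, 0, 0, 0, 0, 0, 0, 0, 0, 0, 0] [0, 0, 0, 3, 6, 7, 8, 9, 18, 18, 27, 27, 27, 27, 27]) (.cons (.leaf 27 [18, 18, 15, 12, 12, 12, 11, 10, 10, 10, 9, 9, 9, 9, 9, 0, 0, 0, 0, 0, 0, 0, 0, 0, 0, 0, 0, 0] [0, 0, 0, 3, 6, 7, 8, 9, 18, 18, 27, 27, 27, 27, 27]) (.cons (.leaf 27 [18, 18, 15, 12, 12, 12, 11, 10, 10, 10, 9, 9, 9, 9, 9, 0, 0, 0, 0, 0, 0, 0, 0, 0, 0, 0, 0, 0] [0, 0, 0, 3, 6, 7, 8, 9, 18, 18, 27, 27, 27, 27, 27]) (.cons (.leaf 4 [2, 2, 2, 2, 2, 2, 2, 2, 2, 2, 2, 2, 2, 2, 2, 2, 2, 2, 2, 2, 1, 1, 0, 0, 0, 0, 0, 0] [0, 0, 0, 0, 0, 0, 0, 0, 0, 0, 0, 2, 2, 2, 3]) (.cons (.leaf 27 [18, 18, 15, 12, 12, 12, 11, 10, 10, 10, 9, 9, 9, 9, 9, 0, 0, 0, 0, 0, 0, 0, 0, 0, 0, 0, 0, 0] [0, 0, 0, 3, 6, 7, 8, 9, 18, 18, 27, 27, 27, 27, 27]) (.cons (.leaf 27 [18, 18, 15, 12, 12, 12, 11, 10, 10, 10, 9, 9, 9, 9, 9, 0, 0, 0, 0, 0, 0, 0, 0, 0, 0, 0, 0, 0] [0, 0, 0, 3, 6, 7, 8, 9, 18, 18, 27, 27, 27, 27, 27]) (.cons (.leaf 27 [18, 18, 15, 12, 12, 12, 11, 10, 10, 10, 9, 9, 9, 9, 9, 0, 0, 0, 0, 0, 0, 0, 0, 0, 0, 0, 0, 0] [0, 0, 0, 3, 6, 7, 8, 9, 18, 18, 27, 27, 27, 27, 27]) (.cons (.leaf 27 [18, 18, 15, 12, 12, 12, 11, 10, 10, 10, 9, 9, 9, 9, 9, 0, 0, 0, 0, 0, 0, 0, 0, 0, 0, 0, 0, 0] [0, 0, 0, 3, 6, 7, 8, 9, 18, 18, 27, 27, 27, 27, 27]) (.cons (.leaf 27 [18, 18, 15, 12, 12, 12, 11, 10, 10, 10, 9, 9, 9, 9, 9, 0, 0, 0, 0, 0, 0, 0, 0, 0, 0, 0, 0, 0] [0, 0, 0, 3, 6, 7, 8, 9, 18, 18, 27, 27, 27, 27, 27]) (.cons .nil (.cons .nil (.cons .nil .nil)))))))))))))))))))))))))))))) (.cons (.node 15 (.leaf 6 [3, 3, 3, 3, 3, 3, 3, 3, 3, 3, 3, 3, 3, 3, 3, 3, 3, 3, 3, 3, 2, 1, 1, 0, 0, 0, 0, 0, 0] [0, 0, 0, 0, 0, 0, 0, 0, 0, 0, 0, 3, 3, 4, 5]) (.cons (.leaf 9 [9, 6, 3, 3, 3, 2, 1, 1, 1, 0, 0, 0, 0, 0, 0, 0, 0, 0, 0, 0, 0, 0, 0, 0, 0, 0, 0, 0] [0, 0, 0, 3, 6, 7, 8, 9, 9, 9, 9, 9, 9, 9, 9]) (.cons (.leaf 9 [9, 6, 3, 3, 3, 2, 1, 1, 1, 0, 0, 0, 0, 0, 0, 0, 0, 0, 0, 0, 0, 0, 0, 0, 0, 0, 0, 0] [0, 0, 0, 3, 6, 7, 8, 9, 9, 9, 9, 9, 9, 9, 9]) (.cons (.leaf 3 [2, 2, 1, 1, 1, 1, 1, 1, 1, 1, 1, 1, 1, 0, 0, 0, 0, 0, 0, 0, 0, 0, 0, 0, 0, 0, 0, 0] [0, 0, 0, 1, 1, 1, 1, 1, 3, 3, 3, 3, 3, 3, 3]) (.cons (.leaf 27 [18, 18, 15, 12, 12, 11, 10, 10, 10, 9, 9, 9, 9, 9, 0, 0, 0, 0, 0, 0, 0, 0, 0, 0, 0, 0, 0, 0] [0, 0, 0, 3, 6, 7, 8, 9, 18, 18, 27, 27, 27, 27, 27]) (.cons (.leaf 27 [18, 18, 15, 12, 12, 11, 10, 10, 10, 9, 9, 9, 9, 9, 0, 0, 0, 0, 0, 0, 0, 0, 0, 0, 0, 0, 0, 0] [0, 0, 0, 3, 6, 7, 8, 9, 18, 18, 27, 27, 27, 27, 27]) (.cons (.leaf 27 [18, 18, 15, 12, 12, 11, 10, 10, 10, 9, 9, 9, 9, 9, 0, 0, 0, 0, 0, 0, 0, 0, 0, 0, 0, 0, 0, 0] [0, 0, 0, 3, 6, 7, 8, 9, 18, 18, 27, 27, 27, 27, 27]) (.cons (.leaf 18 [12, 12, 10, 8, 8, 8, 7, 7, 7, 6, 6, 6, 6, 6, 0, 0, 0, 0, 0, 0, 0, 0, 0, 0, 0, 0, 0, 0] [0, 0, 0, 2, 4, 4, 5, 6, 12, 12, 18, 18, 18, 18, 18]) (.cons (.leaf 9 [6, 6, 5, 4, 4, 4, 4, 3, 3, 3, 3, 3, 3, 3, 0, 0, 0, 0, 0, 0, 0, 0, 0, 0, 0, 0, 0, 0] [0, 0, 0, 1, 2, 2, 3, 3, 6, 6, 9, 9, 9, 9, 9]) (.cons (.leaf 27 [18, 18, 15, 12, 12, 12, 11, 10, 10, 9, 9, 9, 9, 9, 0, 0, 0, 0, 0, 0, 0, 0, 0, 0, 0, 0, 0, 0] [0, 0, 0, 3, 6, 7, 8, 9, 18, 18, 27, 27, 27, 27, 27]) (.cons (.leaf 27 [18, 18, 15, 12, 12, 12, 11, 10, 10, 9, 9, 9, 9, 9, 0, 0, 0, 0, 0, 0, 0, 0, 0, 0, 0, 0, 0, 0] [0, 0, 0, 3, 6, 7, 8, 9, 18, 18, 27, 27, 27, 27, 27]) (.cons (.leaf 27 [18, 18, 15, 12, 12, 12, 11, 10, 10, 10, 9, 9, 9, 9, 0, 0, 0, 0, 0, 0, 0, 0, 0, 0, 0, 0, 0, 0] [0, 0, 0, 3, 6, 7, 8, 9, 18, 18, 27, 27, 27, 27, 27]) (.cons (.leaf 27 [18, 18, 15, 12, 12, 12, 11, 10, 10, 10, 9, 9, 9, 9, 0, 0, 0, 0, 0, 0, 0, 0, 0, 0, 0, 0, 0, 0] [0, 0, 0, 3, 6, 7, 8, 9, 18, 18, 27, 27, 27, 27, 27]) (.cons (.leaf 27 [18, 18, 15, 12, 12, 12, 11, 10, 10, 10, 9, 9, 9, 9, 0, 0, 0, 0, 0, 0, 0, 0, 0, 0, 0, 0, 0, 0] [0, 0, 0, 3, 6, 7, 8, 9, 18, 18, 27, 27, 27, 27, 27]) (.cons (.leaf 27 [18, 18, 15, 12, 12, 12, 11, 10, 10, 10, 9, 9, 9, 9, 0, 0, 0, 0, 0, 0, 0, 0, 0, 0, 0, 0, 0, 0] [0, 0, 0, 3, 6, 7, 8, 9, 18, 18, 27, 27, 27, 27, 27]) (.cons (.leaf 27 [18, 18, 15, 12, 12, 12, 11, 10, 10, 10, 9, 9, 9, 9, 0, 0, 0, 0, 0, 0, 0, 0, 0, 0, 0, 0, 0, 0] [0, 0, 0, 3, 6, 7, 8, 9, 18, 18, 27, 27, 27, 27, 27]) (.cons (.node 15 (.leaf 6 [3, 3, 3, 3, 3, 3, 3, 3, 3, 3, 3, 3, 3, 3, 3, 3, 3, 3, 2, 1, 1, 0, 0, 0, 0, 0, 0] [0, 0, 0, 0, 0, 0, 0, 0, 0, 0, 0, 3, 3, 4, 5]) (.cons (.leaf 9 [9, 6, 3, 3, 3, 2, 1, 1, 1, 0, 0, 0, 0, 0, 0, 0, 0, 0, 0, 0, 0, 0, 0, 0, 0, 0] [0, 0, 0, 3, 6, 7, 8, 9, 9, 9, 9, 9, 9, 9, 9]) (.cons (.leaf 9 [9, 6, 3, 3, 3, 2, 1, 1, 1, 0, 0, 0, 0, 0, 0, 0, 0, 0, 0, 0, 0, 0, 0, 0, 0, 0] [0, 0, 0, 3, 6, 7, 8, 9, 9, 9, 9, 9, 9, 9, 9]) (.cons (.leaf 3 [2, 2, 1, 1, 1, 1, 1, 1, 1, 1, 1, 1, 1, 1, 0, 0, 0, 0, 0, 0, 0, 0, 0, 0, 0, 0] [0, 0, 0, 1, 1, 1, 1, 1, 2, 2, 2, 3, 3, 3, 3]) (.cons (.leaf 27 [18, 18, 15, 12, 12, 11, 10, 10, 10, 9, 9, 9, 9, 9, 0, 0, 0, 0, 0, 0, 0, 0, 0, 0, 0, 0] [0, 0, 0, 3, 6, 7, 8, 9, 18, 18, 18, 27, 27, 27, 27]) (.cons (.leaf 27 [18, 18, 15, 12, 12, 11, 10, 10, 10, 9, 9, 9, 9, 9, 0, 0, 0, 0, 0, 0, 0, 0, 0, 0, 0, 0] [0, 0, 0, 3, 6, 7, 8, 9, 18, 18, 18, 27, 27, 27, 27]) (.cons (.leaf 27 [18, 18, 15, 12, 12, 11, 10, 10, 10, 9, 9, 9, 9, 9, 0, 0, 0, 0, 0, 0, 0, 0, 0, 0, 0, 0] [0, 0, 0, 3, 6, 7, 8, 9, 18, 18, 18, 27, 27, 27, 27]) (.cons (.leaf 18 [12, 12, 10, 8, 8, 8, 7, 7, 7, 6, 6, 6, 6, 6, 0, 0, 0, 0, 0, 0, 0, 0, 0, 0, 0, 0] [0, 0, 0, 2, 4, 4, 5, 6, 12, 12, 12, 18, 18, 18, 18]) (.cons (.leaf 9 [6, 6, 5, 4, 4, 4, 4, 3, 3, 3, 3, 3, 3, 3, 0, 0, 0, 0, 0, 0, 0, 0, 0, 0, 0, 0] [0, 0, 0, 1, 2, 2, 3, 3, 6, 6, 6, 9, 9, 9, 9]) (.cons (.leaf 27 [18, 18, 15, 12, 12, 12, 11, 10, 10, 9, 9, 9, 9, 9, 0, 0, 0, 0, 0, 0, 0, 0, 0, 0, 0, 0] [0, 0, 0, 3, 6, 7, 8, 9, 18, 18, 18, 27, 27, 27, 27]) (.cons (.leaf 27 [18, 18, 15, 12, 12, 12, 11, 10, 10, 9, 9, 9, 9, 9, 0, 0, 0, 0, 0, 0, 0, 0, 0, 0, 0, 0] [0, 0, 0, 3, 6, 7, 8, 9, 18, 18, 18, 27, 27, 27, 27]) (.cons (.leaf 27 [18, 18, 15, 12, 12, 12, 11, 10, 10, 10, 9, 9, 9, 0, 0, 0, 0, 0, 0, 0, 0, 0, 0, 0, 0, 0] [0, 0, 0, 3, 6, 7, 8, 9, 27, 27, 27, 27, 27, 27, 27]) (.cons (.leaf 27 [18, 18, 15, 12, 12, 12, 11, 10, 10, 10, 9, 9, 9, 0, 0, 0, 0, 0, 0, 0, 0, 0, 0, 0, 0, 0] [0, 0, 0, 3, 6, 7, 8, 9, 27, 27, 27, 27, 27, 27, 27]) (.cons (.leaf 27 [18, 18, 15, 12, 12, 12, 11, 10, 10, 10, 9, 9, 9, 9, 0, 0, 0, 0, 0, 0, 0, 0, 0, 0, 0, 0] [0, 0, 0, 3, 6, 7, 8, 9, 18, 18, 18, 27, 27, 27, 27]) (.cons (.leaf 27 [18, 18, 15, 12, 12, 12, 11, 10, 10, 10, 9, 9, 9, 9, 0, 0, 0, 0, 0, 0, 0, 0, 0, 0, 0, 0] [0, 0, 0, 3, 6, 7, 8, 9, 18, 18, 18, 27, 27, 27, 27]) (.cons (.leaf 27 [18, 18, 15, 12, 12, 12, 11, 10, 10, 10, 9, 9, 9, 9, 0, 0, 0, 0, 0, 0, 0, 0, 0, 0, 0, 0] [0, 0, 0, 3, 6, 7, 8, 9, 18, 18, 18, 27, 27, 27, 27]) (.cons (.leaf 27 [18, 18, 15, 12, 12, 12, 11, 10, 10, 10, 9, 9, 9, 9, 0, 0, 0, 0, 0, 0, 0, 0, 0, 0, 0, 0] [0, 0, 0, 3, 6, 7, 8, 9, 18, 27, 27, 27, 27, 27, 27]) (.cons (.leaf 27 [18, 18, 15, 12, 12, 12, 11, 10, 10, 10, 9, 9, 9, 9, 0, 0, 0, 0, 0, 0, 0, 0, 0, 0, 0, 0] [0, 0, 0, 3, 6, 7, 8, 9, 18, 27, 27, 27, 27, 27, 27]) (.cons (.leaf 27 [18, 18, 15, 12, 12, 12, 11, 10, 10, 10, 9, 9, 9, 9, 0, 0, 0, 0, 0, 0, 0, 0, 0, 0, 0, 0] [0, 0, 0, 3, 6, 7, 8, 9, 18, 27, 27, 27, 27, 27, 27]) (.cons (.leaf 4 [2, 2, 2, 2, 2, 2, 2, 2, 2, 2, 2, 2, 2, 2, 2, 2, 2, 2, 1, 1, 0, 0, 0, 0, 0, 0] [0, 0, 0, 0, 0, 0, 0, 0, 0, 0, 0, 2, 2, 2, 3]) (.cons (.leaf 27 [18, 18, 15, 12, 12, 12, 11, 10, 10, 10, 9, 9, 9, 9, 9, 0, 0, 0, 0, 0, 0, 0, 0, 0, 0, 0] [0, 0, 0, 3, 6, 7, 8, 9, 18, 18, 18, 27, 27, 27, 27]) (.cons (.leaf 27 [18, 18, 15, 12, 12, 12, 11, 10, 10, 10, 9, 9, 9, 9, 9, 0, 0, 0, 0, 0, 0, 0, 0, 0, 0, 0] [0, 0, 0, 3, 6, 7, 8, 9, 18, 18, 18, 27, 27, 27, 27]) (.cons (.leaf 27 [18, 18, 15, 12, 12, 12, 11, 10, 10, 10, 9, 9, 9, 9, 9, 0, 0, 0, 0, 0, 0, 0, 0, 0, 0, 0] [0, 0, 0, 3, 6, 7, 8, 9, 18, 18, 18, 27, 27, 27, 27]) (.cons (.leaf 27 [18, 18, 15, 12, 12, 12, 11, 10, 10, 10, 9, 9, 9, 9, 9, 0, 0, 0, 0, 0, 0, 0, 0, 0, 0, 0] [0, 0, 0, 3, 6, 7, 8, 9, 18, 18, 18, 27, 27, 27, 27]) (.cons (.leaf 27 [18, 18, 15, 12, 12, 12, 11, 10, 10, 10, 9, 9, 9, 9, 9, 0, 0, 0, 0, 0, 0, 0, 0, 0, 0, 0] [0, 0, 0, 3, 6, 7, 8, 9, 18, 18, 18, 27, 27, 27, 27]) (.cons .nil (.cons .nil (.cons .nil .nil)))))))))))))))))))))))))))) (.cons (.node 15 (.leaf 6 [3, 3, 3, 3, 3, 3, 3, 3, 3, 3, 3, 3, 3, 3, 3, 3, 3, 3, 2, 1, 1, 0, 0, 0, 0, 0, 0] [0, 0, 0, 0, 0, 0, 0, 0, 0, 0, 0, 3, 3, 4, 5]) (.cons (.leaf 9 [9, 6, 3, 3, 3, 2, 1, 1, 1, 0, 0, 0, 0, 0, 0, 0, 0, 0, 0, 0, 0, 0, 0, 0, 0, 0] [0, 0, 0, 3, 6, 7, 8, 9, 9, 9, 9, 9, 9, 9, 9]) (.cons (.leaf 9 [9, 6, 3, 3, 3, 2, 1, 1, 1, 0, 0, 0, 0, 0, 0, 0, 0, 0, 0, 0, 0, 0, 0, 0, 0, 0] [0, 0, 0, 3, 6, 7, 8, 9, 9, 9, 9, 9, 9, 9, 9]) (.cons (.leaf 3 [2, 2, 1, 1, 1, 1, 1, 1, 1, 1, 1, 1, 1, 1, 0, 0, 0, 0, 0, 0, 0, 0, 0, 0, 0, 0] [0, 0, 0, 1, 1, 1, 1, 1, 2, 2, 2, 3, 3, 3, 3]) (.cons (.leaf 27 [18, 18, 15, 12, 12, 11, 10, 10, 10, 9, 9, 9, 9, 9, 0, 0, 0, 0, 0, 0, 0, 0, 0, 0, 0, 0] [0, 0, 0, 3, 6, 7, 8, 9, 18, 18, 18, 27, 27, 27, 27]) (.cons (.leaf 27 [18, 18, 15, 12, 12, 11, 10, 10, 10, 9, 9, 9, 9, 9, 0, 0, 0, 0, 0, 0, 0, 0, 0, 0, 0, 0] [0, 0, 0, 3, 6, 7, 8, 9, 18, 18, 18, 27, 27, 27, 27]) (.cons (.leaf 27 [18, 18, 15, 12, 12, 11, 10, 10, 10, 9, 9, 9, 9, 9, 0, 0, 0, 0, 0, 0, 0, 0, 0, 0, 0, 0] [0, 0, 0, 3, 6, 7, 8, 9, 18, 18, 18, 27, 27, 27, 27]) (.cons (.leaf 18 [12, 12, 10, 8, 8, 8, 7, 7, 7, 6, 6, 6, 6, 6, 0, 0, 0, 0, 0, 0, 0, 0, 0, 0, 0, 0] [0, 0, 0, 2, 4, 4, 5, 6, 12, 12, 12, 18, 18, 18, 18]) (.cons (.leaf 9 [6, 6, 5, 4, 4, 4, 4, 3, 3, 3, 3, 3, 3, 3, 0, 0, 0, 0, 0, 0, 0, 0, 0, 0, 0, 0] [0, 0, 0, 1, 2, 2, 3, 3, 6, 6, 6, 9, 9, 9, 9]) (.cons (.leaf 27 [18, 18, 15, 12, 12, 12, 11, 10, 10, 9, 9, 9, 9, 9, 0, 0, 0, 0, 0, 0, 0, 0, 0, 0, 0, 0] [0, 0, 0, 3, 6, 7, 8, 9, 18, 18, 18, 27, 27, 27, 27]) (.cons (.leaf 27 [18, 18, 15, 12, 12, 12, 11, 10, 10, 9, 9, 9, 9, 9, 0, 0, 0, 0, 0, 0, 0, 0, 0, 0, 0, 0] [0, 0, 0, 3, 6, 7, 8, 9, 18, 18, 18, 27, 27, 27, 27]) (.cons (.leaf 27 [18, 18, 15, 12, 12, 12, 11, 10, 10, 10, 9, 9, 9, 0, 0, 0, 0, 0, 0, 0, 0, 0, 0, 0, 0, 0] [0, 0, 0, 3, 6, 7, 8, 9, 27, 27, 27, 27, 27, 27, 27]) (.cons (.leaf 27 [18, 18, 15, 12, 12, 12, 11, 10, 10, 10, 9, 9, 9, 0, 0, 0, 0, 0, 0, 0, 0, 0, 0, 0, 0, 0] [0, 0, 0, 3, 6, 7, 8, 9, 27, 27, 27, 27, 27, 27, 27]) (.cons (.leaf 27 [18, 18, 15, 12, 12, 12, 11, 10, 10, 10, 9, 9, 9, 9, 0, 0, 0, 0, 0, 0, 0, 0, 0, 0, 0, 0] [0, 0, 0, 3, 6, 7, 8, 9, 18, 18, 18, 27, 27, 27, 27]) (.cons (.leaf 27 [18, 18, 15, 12, 12, 12, 11, 10, 10, 10, 9, 9, 9, 9, 0, 0, 0, 0, 0, 0, 0, 0, 0, 0, 0, 0] [0, 0, 0, 3, 6, 7, 8, 9, 18, 18, 18, 27, 27, 27, 27]) (.cons (.leaf 27 [18, 18, 15, 12, 12, 12, 11, 10, 10, 10, 9, 9, 9, 9, 0, 0, 0, 0, 0, 0, 0, 0, 0, 0, 0, 0] [0, 0, 0, 3, 6, 7, 8, 9, 18, 18, 18, 27, 27, 27, 27]) (.cons (.leaf 27 [18, 18, 15, 12, 12, 12, 11, 10, 10, 10, 9, 9, 9, 9, 0, 0, 0, 0, 0, 0, 0, 0, 0, 0, 0, 0] [0, 0, 0, 3, 6, 7, 8, 9, 18, 27, 27, 27, 27, 27, 27]) (.cons (.leaf 27 [18, 18, 15, 12, 12, 12, 11, 10, 10, 10, 9, 9, 9, 9, 0, 0, 0, 0, 0, 0, 0, 0, 0, 0, 0, 0] [0, 0, 0, 3, 6, 7, 8, 9, 18, 27, 27, 27, 27, 27, 27]) (.cons (.leaf 27 [18, 18, 15, 12, 12, 12, 11, 10, 10, 10, 9, 9, 9, 9, 0, 0, 0, 0, 0, 0, 0, 0, 0, 0, 0, 0] [0, 0, 0, 3, 6, 7, 8, 9, 18, 27, 27, 27, 27, 27, 27]) (.cons (.leaf 4 [2, 2, 2, 2, 2, 2, 2, 2, 2, 2, 2, 2, 2, 2, 2, 2, 2, 2, 1, 1, 0, 0, 0, 0, 0, 0] [0, 0, 0, 0, 0, 0, 0, 0, 0, 0, 0, 2, 2, 2, 3]) (.cons (.leaf 27 [18, 18, 15, 12, 12, 12, 11, 10, 10, 10, 9, 9, 9, 9, 9, 0, 0, 0, 0, 0, 0, 0, 0, 0, 0, 0] [0, 0, 0, 3, 6, 7, 8, 9, 18, 18, 18, 27, 27, 27, 27]) (.cons (.leaf 27 [18, 18, 15, 12, 12, 12, 11, 10, 10, 10, 9, 9, 9, 9, 9, 0, 0, 0, 0, 0, 0, 0, 0, 0, 0, 0] [0, 0, 0, 3, 6, 7, 8, 9, 18, 18, 18, 27, 27, 27, 27]) (.cons (.leaf 27 [18, 18, 15, 12, 12, 12, 11, 10, 10, 10, 9, 9, 9, 9, 9, 0, 0, 0, 0, 0, 0, 0, 0, 0, 0, 0] [0, 0, 0, 3, 6, 7, 8, 9, 18, 18, 18, 27, 27, 27, 27]) (.cons (.leaf 27 [18, 18, 15, 12, 12, 12, 11, 10, 10, 10, 9, 9, 9, 9, 9, 0, 0, 0, 0, 0, 0, 0, 0, 0, 0, 0] [0, 0, 0, 3, 6, 7, 8, 9, 18, 18, 18, 27, 27, 27, 27]) (.cons (.leaf 27 [18, 18, 15, 12, 12, 12, 11, 10, 10, 10, 9, 9, 9, 9, 9, 0, 0, 0, 0, 0, 0, 0, 0, 0, 0, 0] [0, 0, 0, 3, 6, 7, 8, 9, 18, 18, 18, 27, 27, 27, 27]) (.cons .nil (.cons .nil (.cons .nil .nil)))))))))))))))))))))))))))) (.cons (.leaf 27 [18, 18, 15, 12, 12, 12, 11, 10, 10, 10, 9, 9, 9, 9, 9, 0, 0, 0, 0, 0, 0, 0, 0, 0, 0, 0, 0, 0] [0, 0, 0, 3, 6, 7, 8, 9, 18, 18, 27, 27, 27, 27, 27]) (.cons (.leaf 27 [18, 18, 15, 12, 12, 12, 11, 10, 10, 10, 9, 9, 9, 9, 9, 0, 0, 0, 0, 0, 0, 0, 0, 0, 0, 0, 0, 0] [0, 0, 0, 3, 6, 7, 8, 9, 18, 18, 27, 27, 27, 27, 27]) (.cons (.leaf 27 [18, 18, 15, 12, 12, 12, 11, 10, 10, 10, 9, 9, 9, 9, 9, 0, 0, 0, 0, 0, 0, 0, 0, 0, 0, 0, 0, 0] [0, 0, 0, 3, 6, 7, 8, 9, 18, 18, 27, 27, 27, 27, 27]) (.cons (.leaf 4 [2, 2, 2, 2, 2, 2, 2, 2, 2, 2, 2, 2, 2, 2, 2, 2, 2, 2, 2, 2, 1, 1, 0, 0, 0, 0, 0, 0] [0, 0, 0, 0, 0, 0, 0, 0, 0, 0, 0, 2, 2, 2, 3]) (.cons (.leaf 27 [18, 18, 15, 12, 12, 12, 11, 10, 10, 10, 9, 9, 9, 9, 9, 0, 0, 0, 0, 0, 0, 0, 0, 0, 0, 0, 0, 0] [0, 0, 0, 3, 6, 7, 8, 9, 18, 18, 27, 27, 27, 27, 27]) (.cons (.leaf 27 [18, 18, 15, 12, 12, 12, 11, 10, 10, 10, 9, 9, 9, 9, 9, 0, 0, 0, 0, 0, 0, 0, 0, 0, 0, 0, 0, 0] [0, 0, 0, 3, 6, 7, 8, 9, 18, 18, 27, 27, 27, 27, 27]) (.cons (.leaf 27 [18, 18, 15, 12, 12, 12, 11, 10, 10, 10, 9, 9, 9, 9, 9, 0, 0, 0, 0, 0, 0, 0, 0, 0, 0, 0, 0, 0] [0, 0, 0, 3, 6, 7, 8, 9, 18, 18, 27, 27, 27, 27, 27]) (.cons (.leaf 27 [18, 18, 15, 12, 12, 12, 11, 10, 10, 10, 9, 9, 9, 9, 9, 0, 0, 0, 0, 0, 0, 0, 0, 0, 0, 0, 0, 0] [0, 0, 0, 3, 6, 7, 8, 9, 18, 18, 27, 27, 27, 27, 27]) (.cons (.leaf 27 [18, 18, 15, 12, 12, 12, 11, 10, 10, 10, 9, 9, 9, 9, 9, 0, 0, 0, 0, 0, 0, 0, 0, 0, 0, 0, 0, 0] [0, 0, 0, 3, 6, 7, 8, 9, 18, 18, 27, 27, 27, 27, 27]) (.cons .nil (.cons .nil (.cons .nil .nil)))))))))))))))))))))))))))))) (.cons (.node 15 (.leaf 6 [3, 3, 3, 3, 3, 3, 3, 3, 3, 3, 3, 3, 3, 3, 3, 3, 3, 3, 3, 3, 2, 1, 1, 1, 0, 0, 0, 0, 0] [0, 0, 0, 0, 0, 0, 0, 0, 0, 0, 0, 3, 3, 4, 5]) (.cons (.leaf 9 [9, 6, 3, 3, 3, 2, 1, 1, 1, 0, 0, 0, 0, 0, 0, 0, 0, 0, 0, 0, 0, 0, 0, 0, 0, 0, 0, 0] [0, 0, 0, 3, 6, 7, 8, 9, 9, 9, 9, 9, 9, 9, 9]) (.cons (.leaf 9 [9, 6, 3, 3, 3, 2, 1, 1, 1, 0, 0, 0, 0, 0, 0, 0, 0, 0, 0, 0, 0, 0, 0, 0, 0, 0, 0, 0] [0, 0, 0, 3, 6, 7, 8, 9, 9, 9, 9, 9, 9, 9, 9]) (.cons (.leaf 3 [2, 2, 1, 1, 1, 1, 1, 1, 1, 1, 1, 1, 1, 1, 0, 0, 0, 0, 0, 0, 0, 0, 0, 0, 0, 0, 0, 0] [0, 0, 0, 1, 1, 1, 1, 1, 2, 2, 3, 3, 3, 3, 3]) (.cons (.leaf 27 [18, 18, 15, 12, 12, 11, 10, 10, 10, 9, 9, 9, 9, 0, 0, 0, 0, 0, 0, 0, 0, 0, 0, 0, 0, 0, 0, 0] [0, 0, 0, 3, 6, 7, 8, 9, 27, 27, 27, 27, 27, 27, 27]) (.cons (.leaf 27 [18, 18, 15, 12, 12, 11, 10, 10, 10, 9, 9, 9, 9, 0, 0, 0, 0, 0, 0, 0, 0, 0, 0, 0, 0, 0, 0, 0] [0, 0, 0, 3, 6, 7, 8, 9, 27, 27, 27, 27, 27, 27, 27]) (.cons (.leaf 27 [18, 18, 15, 12, 12, 11, 10, 10, 10, 9, 9, 9, 9, 0, 0, 0, 0, 0, 0, 0, 0, 0, 0, 0, 0, 0, 0, 0] [0, 0, 0, 3, 6, 7, 8, 9, 27, 27, 27, 27, 27, 27, 27]) (.cons (.leaf 18 [12, 12, 10, 8, 8, 8, 7, 7, 7, 6, 6, 6, 6, 0, 0, 0, 0, 0, 0, 0, 0, 0, 0, 0, 0, 0, 0, 0] [0, 0, 0, 2, 4, 4, 5, 6, 18, 18, 18, 18, 18, 18, 18]) (.cons (.leaf 9 [6, 6, 5, 4, 4, 4, 4, 3, 3, 3, 3, 3, 3, 0, 0, 0, 0, 0, 0, 0, 0, 0, 0, 0, 0, 0, 0, 0] [0, 0, 0, 1, 2, 2, 3, 3, 9, 9, 9, 9, 9, 9, 9]) (.cons (.leaf 27 [18, 18, 15, 12, 12, 12, 11, 10, 10, 9, 9, 9, 9, 0, 0, 0, 0, 0, 0, 0, 0, 0, 0, 0, 0, 0, 0, 0] [0, 0, 0, 3, 6, 7, 8, 9, 27, 27, 27, 27, 27, 27, 27]) (.cons (.leaf 27 [18, 18, 15, 12, 12, 12, 11, 10, 10, 9, 9, 9, 9, 0, 0, 0, 0, 0, 0, 0, 0, 0, 0, 0, 0, 0, 0, 0] [0, 0, 0, 3, 6, 7, 8, 9, 27, 27, 27, 27, 27, 27, 27]) (.cons (.leaf 27 [18, 18, 15, 12, 12, 12, 11, 10, 10, 10, 9, 9, 9, 0, 0, 0, 0, 0, 0, 0, 0, 0, 0, 0, 0, 0, 0, 0] [0, 0, 0, 3, 6, 7, 8, 9, 27, 27, 27, 27, 27, 27, 27]) (.cons (.leaf 27 [18, 18, 15, 12, 12, 12, 11, 10, 10, 10, 9, 9, 9, 0, 0, 0, 0, 0, 0, 0, 0, 0, 0, 0, 0, 0, 0, 0] [0, 0, 0, 3, 6, 7, 8, 9, 27, 27, 27, 27, 27, 27, 27]) (.cons (.leaf 27 [18, 18, 15, 12, 12, 12, 11, 10, 10, 10, 9, 9, 9, 9, 0, 0, 0, 0, 0, 0, 0, 0, 0, 0, 0, 0, 0, 0] [0, 0, 0, 3, 6, 7, 8, 9, 18, 18, 27, 27, 27, 27, 27]) (.cons (.leaf 27 [18, 18, 15, 12, 12, 12, 11, 10, 10, 10, 9, 9, 9, 9, 0, 0, 0, 0, 0, 0, 0, 0, 0, 0, 0, 0, 0, 0] [0, 0, 0, 3, 6, 7, 8, 9, 18, 18, 27, 27, 27, 27, 27]) (.cons (.leaf 27 [18, 18, 15, 12, 12, 12, 11, 10, 10, 10, 9, 9, 9, 9, 0, 0, 0, 0, 0, 0, 0, 0, 0, 0, 0, 0, 0, 0] [0, 0, 0, 3, 6, 7, 8, 9, 18, 18, 27, 27, 27, 27, 27]) (.cons (.node 15 (.leaf 6 [3, 3, 3, 3, 3, 3, 3, 3, 3, 3, 3, 3, 3, 3, 3, 3, 3, 3, 2, 1, 1, 1, 0, 0, 0, 0, 0] [0, 0, 0, 0, 0, 0, 0, 0, 0, 0, 0, 3, 3, 4, 5]) (.cons (.leaf 9 [9, 6, 3, 3, 3, 2, 1, 1, 1, 0, 0, 0, 0, 0, 0, 0, 0, 0, 0, 0, 0, 0, 0, 0, 0, 0] [0, 0, 0, 3, 6, 7, 8, 9, 9, 9, 9, 9, 9, 9, 9]) (.cons (.leaf 9 [9, 6, 3, 3, 3, 2, 1, 1, 1, 0, 0, 0, 0, 0, 0, 0, 0, 0, 0, 0, 0, 0, 0, 0, 0, 0] [0, 0, 0, 3, 6, 7, 8, 9, 9, 9, 9, 9, 9, 9, 9]) (.cons (.leaf 3 [2, 2, 1, 1, 1, 1, 1, 1, 1, 1, 1, 1, 1, 1, 0, 0, 0, 0, 0, 0, 0, 0, 0, 0, 0, 0] [0, 0, 0, 1, 1, 1, 1, 1, 2, 2, 2, 3, 3, 3, 3]) (.cons (.leaf 27 [18, 18, 15, 12, 12, 11, 10, 10, 10, 9, 9, 9, 9, 9, 0, 0, 0, 0, 0, 0, 0, 0, 0, 0, 0, 0] [0, 0, 0, 3, 6, 7, 8, 9, 18, 18, 18, 27, 27, 27, 27]) (.cons (.leaf 27 [18, 18, 15, 12, 12, 11, 10, 10, 10, 9, 9, 9, 9, 9, 0, 0, 0, 0, 0, 0, 0, 0, 0, 0, 0, 0] [0, 0, 0, 3, 6, 7, 8, 9, 18, 18, 18, 27, 27, 27, 27]) (.cons (.leaf 27 [18, 18, 15, 12, 12, 11, 10, 10, 10, 9, 9, 9, 9, 9, 0, 0, 0, 0, 0, 0, 0, 0, 0, 0, 0, 0] [0, 0, 0, 3, 6, 7, 8, 9, 18, 18, 18, 27, 27, 27, 27]) (.cons (.leaf 18 [12, 12, 10, 8, 8, 8, 7, 7, 7, 6, 6, 6, 6, 6, 0, 0, 0, 0, 0, 0, 0, 0, 0, 0, 0, 0] [0, 0, 0, 2, 4, 4, 5, 6, 12, 12, 12, 18, 18, 18, 18]) (.cons (.leaf 9 [6, 6, 5, 4, 4, 4, 4, 3, 3, 3, 3, 3, 3, 3, 0, 0, 0, 0, 0, 0, 0, 0, 0, 0, 0, 0] [0, 0, 0, 1, 2, 2, 3, 3, 6, 6, 6, 9, 9, 9, 9]) (.cons (.leaf 27 [18, 18, 15, 12, 12, 12, 11, 10, 10, 9, 9, 9, 9, 9, 0, 0, 0, 0, 0, 0, 0, 0, 0, 0, 0, 0] [0, 0, 0, 3, 6, 7, 8, 9, 18, 18, 18, 27, 27, 27, 27]) (.cons (.leaf 27 [18, 18, 15, 12, 12, 12, 11, 10, 10, 9, 9, 9, 9, 9, 0, 0, 0, 0, 0, 0, 0, 0, 0, 0, 0, 0] [0, 0, 0, 3, 6, 7, 8, 9, 18, 18, 18, 27, 27, 27, 27]) (.cons (.leaf 27 [18, 18, 15, 12, 12, 12, 11, 10, 10, 10, 9, 9, 9, 0, 0, 0, 0, 0, 0, 0, 0, 0, 0, 0, 0, 0] [0, 0, 0, 3, 6, 7, 8, 9, 27, 27, 27, 27, 27, 27, 27]) (.cons (.leaf 27 [18, 18, 15, 12, 12, 12, 11, 10, 10, 10, 9, 9, 9, 0, 0, 0, 0, 0, 0, 0, 0, 0, 0, 0, 0, 0] [0, 0, 0, 3, 6, 7, 8, 9, 27, 27, 27, 27, 27, 27, 27]) (.cons (.leaf 27 [18, 18, 15, 12, 12, 12, 11, 10, 10, 10, 9, 9, 9, 9, 0, 0, 0, 0, 0, 0, 0, 0, 0, 0, 0, 0] [0, 0, 0, 3, 6, 7, 8, 9, 18, 18, 18, 27, 27, 27, 27]) (.cons (.leaf 27 [18, 18, 15, 12, 12, 12, 11, 10, 10, 10, 9, 9, 9, 9, 0, 0, 0, 0, 0, 0, 0, 0, 0, 0, 0, 0] [0, 0, 0, 3, 6, 7, 8, 9, 18, 18, 18, 27, 27, 27, 27]) (.cons (.leaf 27 [18, 18, 15, 12, 12, 12, 11, 10, 10, 10, 9, 9, 9, 9, 0, 0, 0, 0, 0, 0, 0, 0, 0, 0, 0, 0] [0, 0, 0, 3, 6, 7, 8, 9, 18, 18, 18, 27, 27, 27, 27]) (.cons (.leaf 27 [18, 18, 15, 12, 12, 12, 11, 10, 10, 10, 9, 9, 9, 9, 0, 0, 0, 0, 0, 0, 0, 0, 0, 0, 0, 0] [0, 0, 0, 3, 6, 7, 8, 9, 18, 27, 27, 27, 27, 27, 27]) (.cons (.leaf 27 [18, 18, 15, 12, 12, 12, 11, 10, 10, 10, 9, 9, 9, 9, 0, 0, 0, 0, 0, 0, 0, 0, 0, 0, 0, 0] [0, 0, 0, 3, 6, 7, 8, 9, 18, 27, 27, 27, 27, 27, 27]) (.cons (.leaf 27 [18, 18, 15, 12, 12, 12, 11, 10, 10, 10, 9, 9, 9, 9, 0, 0, 0, 0, 0, 0, 0, 0, 0, 0, 0, 0] [0, 0, 0, 3, 6, 7, 8, 9, 18, 27, 27, 27, 27, 27, 27]) (.cons (.leaf 27 [18, 18, 15, 12, 12, 12, 11, 10, 10, 10, 9, 9, 9, 9, 9, 0, 0, 0, 0, 0, 0, 0, 0, 0, 0, 0] [0, 0, 0, 3, 6, 7, 8, 9, 18, 18, 18, 27, 27, 27, 27]) (.cons (.leaf 27 [18, 18, 15, 12, 12, 12, 11, 10, 10, 10, 9, 9, 9, 9, 9, 0, 0, 0, 0, 0, 0, 0, 0, 0, 0, 0] [0, 0, 0, 3, 6, 7, 8, 9, 18, 18, 18, 27, 27, 27, 27]) (.cons (.leaf 27 [18, 18, 15, 12, 12, 12, 11, 10, 10, 10, 9, 9, 9, 9, 9, 0, 0, 0, 0, 0, 0, 0, 0, 0, 0, 0] [0, 0, 0, 3, 6, 7, 8, 9, 18, 18, 18, 27, 27, 27, 27]) (.cons (.leaf 27 [18, 18, 15, 12, 12, 12, 11, 10, 10, 10, 9, 9, 9, 9, 9, 0, 0, 0, 0, 0, 0, 0, 0, 0, 0, 0] [0, 0, 0, 3, 6, 7, 8, 9, 18, 18, 18, 27, 27, 27, 27]) (.cons (.leaf 27 [18, 18, 15, 12, 12, 12, 11, 10, 10, 10, 9, 9, 9, 9, 9, 0, 0, 0, 0, 0, 0, 0, 0, 0, 0, 0] [0, 0, 0, 3, 6, 7, 8, 9, 18, 18, 18, 27, 27, 27, 27]) (.cons (.leaf 27 [18, 18, 15, 12, 12, 12, 11, 10, 10, 10, 9, 9, 9, 9, 9, 0, 0, 0, 0, 0, 0, 0, 0, 0, 0, 0] [0, 0, 0, 3, 6, 7, 8, 9, 18, 18, 18, 27, 27, 27, 27]) (.cons .nil (.cons .nil (.cons .nil .nil)))))))))))))))))))))))))))) (.cons (.node 15 (.leaf 6 [3, 3, 3, 3, 3, 3, 3, 3, 3, 3, 3, 3, 3, 3, 3, 3, 3, 3, 2, 1, 1, 1, 0, 0, 0, 0, 0] [0, 0, 0, 0, 0, 0, 0, 0, 0, 0, 0, 3, 3, 4, 5]) (.cons (.leaf 9 [9, 6, 3, 3, 3, 2, 1, 1, 1, 0, 0, 0, 0, 0, 0, 0, 0, 0, 0, 0, 0, 0, 0, 0, 0, 0] [0, 0, 0, 3, 6, 7, 8, 9, 9, 9, 9, 9, 9, 9, 9]) (.cons (.leaf 9 [9, 6, 3, 3, 3, 2, 1, 1, 1, 0, 0, 0, 0, 0, 0, 0, 0, 0, 0, 0, 0, 0, 0, 0, 0, 0] [0, 0, 0, 3, 6, 7, 8, 9, 9, 9, 9, 9, 9, 9, 9]) (.cons (.leaf 3 [2, 2, 1, 1, 1, 1, 1, 1, 1, 1, 1, 1, 1, 1, 0, 0, 0, 0, 0, 0, 0, 0, 0, 0, 0, 0] [0, 0, 0, 1, 1, 1, 1, 1, 2, 2, 2, 3, 3, 3, 3]) (.cons (.leaf 27 [18, 18, 15, 12, 12, 11, 10, 10, 10, 9, 9, 9, 9, 9, 0, 0, 0, 0, 0, 0, 0, 0, 0, 0, 0, 0] [0, 0, 0, 3, 6, 7, 8, 9, 18, 18, 18, 27, 27, 27, 27]) (.cons (.leaf 27 [18, 18, 15, 12, 12, 11, 10, 10, 10, 9, 9, 9, 9, 9, 0, 0, 0, 0, 0, 0, 0, 0, 0, 0, 0, 0] [0, 0, 0, 3, 6, 7, 8, 9, 18, 18, 18, 27, 27, 27, 27]) (.cons (.leaf 27 [18, 18, 15, 12, 12, 11, 10, 10, 10, 9, 9, 9, 9, 9, 0, 0, 0, 0, 0, 0, 0, 0, 0, 0, 0, 0] [0, 0, 0, 3, 6, 7, 8, 9, 18, 18, 18, 27, 27, 27, 27]) (.cons (.leaf 18 [12, 12, 10, 8, 8, 8, 7, 7, 7, 6, 6, 6, 6, 6, 0, 0, 0, 0, 0, 0, 0, 0, 0, 0, 0, 0] [0, 0, 0, 2, 4, 4, 5, 6, 12, 12, 12, 18, 18, 18, 18]) (.cons (.leaf 9 [6, 6, 5, 4, 4, 4, 4, 3, 3, 3, 3, 3, 3, 3, 0, 0, 0, 0, 0, 0, 0, 0, 0, 0, 0, 0] [0, 0, 0, 1, 2, 2, 3, 3, 6, 6, 6, 9, 9, 9, 9]) (.cons (.leaf 27 [18, 18, 15, 12, 12, 12, 11, 10, 10, 9, 9, 9, 9, 9, 0, 0, 0, 0, 0, 0, 0, 0, 0, 0, 0, 0] [0, 0, 0, 3, 6, 7, 8, 9, 18, 18, 18, 27, 27, 27, 27]) (.cons (.leaf 27 [18, 18, 15, 12, 12, 12, 11, 10, 10, 9, 9, 9, 9, 9, 0, 0, 0, 0, 0, 0, 0, 0, 0, 0, 0, 0] [0, 0, 0, 3, 6, 7, 8, 9, 18, 18, 18, 27, 27, 27, 27]) (.cons (.leaf 27 [18, 18, 15, 12, 12, 12, 11, 10, 10, 10, 9, 9, 9, 0, 0, 0, 0, 0, 0, 0, 0, 0, 0, 0, 0, 0] [0, 0, 0, 3, 6, 7, 8, 9, 27, 27, 27, 27, 27, 27, 27]) (.cons (.leaf 27 [18, 18, 15, 12, 12, 12, 11, 10, 10, 10, 9, 9, 9, 0, 0, 0, 0, 0, 0, 0, 0, 0, 0, 0, 0, 0] [0, 0, 0, 3, 6, 7, 8, 9, 27, 27, 27, 27, 27, 27, 27]) (.cons (.leaf 27 [18, 18, 15, 12, 12, 12, 11, 10, 10, 10, 9, 9, 9, 9, 0, 0, 0, 0, 0, 0, 0, 0, 0, 0, 0, 0] [0, 0, 0, 3, 6, 7, 8, 9, 18, 18, 18, 27, 27, 27, 27]) (.cons (.leaf 27 [18, 18, 15, 12, 12, 12, 11, 10, 10, 10, 9, 9, 9, 9, 0, 0, 0, 0, 0, 0, 0, 0, 0, 0, 0, 0] [0, 0, 0, 3, 6, 7, 8, 9, 18, 18, 18, 27, 27, 27, 27]) (.cons (.leaf 27 [18, 18, 15, 12, 12, 12, 11, 10, 10, 10, 9, 9, 9, 9, 0, 0, 0, 0, 0, 0, 0, 0, 0, 0, 0, 0] [0, 0, 0, 3, 6, 7, 8, 9, 18, 18, 18, 27, 27, 27, 27]) (.cons (.leaf 27 [18, 18, 15, 12, 12, 12, 11, 10, 10, 10, 9, 9, 9, 9, 0, 0, 0, 0, 0, 0, 0, 0, 0, 0, 0, 0] [0, 0, 0, 3, 6, 7, 8, 9, 18, 27, 27, 27, 27, 27, 27]) (.cons (.leaf 27 [18, 18, 15, 12, 12, 12, 11, 10, 10, 10, 9, 9, 9, 9, 0, 0, 0, 0, 0, 0, 0, 0, 0, 0, 0, 0] [0, 0, 0, 3, 6, 7, 8, 9, 18, 27, 27, 27, 27, 27, 27]) (.cons (.leaf 27 [18, 18, 15, 12, 12, 12, 11, 10, 10, 10, 9, 9, 9, 9, 0, 0, 0, 0, 0, 0, 0, 0, 0, 0, 0, 0] [0, 0, 0, 3, 6, 7, 8, 9, 18, 27, 27, 27, 27, 27, 27]) (.cons (.leaf 27 [18, 18, 15, 12, 12, 12, 11, 10, 10, 10, 9, 9, 9, 9, 9, 0, 0, 0, 0, 0, 0, 0, 0, 0, 0, 0] [0, 0, 0, 3, 6, 7, 8, 9, 18, 18, 18, 27, 27, 27, 27]) (.cons (.leaf 27 [18, 18, 15, 12, 12, 12, 11, 10, 10, 10, 9, 9, 9, 9, 9, 0, 0, 0, 0, 0, 0, 0, 0, 0, 0, 0] [0, 0, 0, 3, 6, 7, 8, 9, 18, 18, 18, 27, 27, 27, 27]) (.cons (.leaf 27 [18, 18, 15, 12, 12, 12, 11, 10, 10, 10, 9, 9, 9, 9, 9, 0, 0, 0, 0, 0, 0, 0, 0, 0, 0, 0] [0, 0, 0, 3, 6, 7, 8, 9, 18, 18, 18, 27, 27, 27, 27]) (.cons (.leaf 27 [18, 18, 15, 12, 12, 12, 11, 10, 10, 10, 9, 9, 9, 9, 9, 0, 0, 0, 0, 0, 0, 0, 0, 0, 0, 0] [0, 0, 0, 3, 6, 7, 8, 9, 18, 18, 18, 27, 27, 27, 27]) (.cons (.leaf 27 [18, 18, 15, 12, 12, 12, 11, 10, 10, 10, 9, 9, 9, 9, 9, 0, 0, 0, 0, 0, 0, 0, 0, 0, 0, 0] [0, 0, 0, 3, 6, 7, 8, 9, 18, 18, 18, 27, 27, 27, 27]) (.cons (.leaf 27 [18, 18, 15, 12, 12, 12, 11, 10, 10, 10, 9, 9, 9, 9, 9, 0, 0, 0, 0, 0, 0, 0, 0, 0, 0, 0] [0, 0, 0, 3, 6, 7, 8, 9, 18, 18, 18, 27, 27, 27, 27]) (.cons .nil (.cons .nil (.cons .nil .nil)))))))))))))))))))))))))))) (.cons (.leaf 27 [18, 18, 15, 12, 12, 12, 11, 10, 10, 10, 9, 9, 9, 9, 9, 0, 0, 0, 0, 0, 0, 0, 0, 0, 0, 0, 0, 0] [0, 0, 0, 3, 6, 7, 8, 9, 18, 18, 27, 27, 27, 27, 27]) (.cons (.leaf 27 [18, 18, 15, 12, 12, 12, 11, 10, 10, 10, 9, 9, 9, 9, 9, 0, 0, 0, 0, 0, 0, 0, 0, 0, 0, 0, 0, 0] [0, 0, 0, 3, 6, 7, 8, 9, 18, 18, 27, 27, 27, 27, 27]) (.cons (.leaf 27 [18, 18, 15, 12, 12, 12, 11, 10, 10, 10, 9, 9, 9, 9, 9, 0, 0, 0, 0, 0, 0, 0, 0, 0, 0, 0, 0, 0] [0, 0, 0, 3, 6, 7, 8, 9, 18, 18, 27, 27, 27, 27, 27]) (.cons (.leaf 27 [18, 18, 15, 12, 12, 12, 11, 10, 10, 10, 9, 9, 9, 9, 9, 0, 0, 0, 0, 0, 0, 0, 0, 0, 0, 0, 0, 0] [0, 0, 0, 3, 6, 7, 8, 9, 18, 18, 27, 27, 27, 27, 27]) (.cons (.leaf 27 [18, 18, 15, 12, 12, 12, 11, 10, 10, 10, 9, 9, 9, 9, 9, 0, 0, 0, 0, 0, 0, 0, 0, 0, 0, 0, 0, 0] [0, 0, 0, 3, 6, 7, 8, 9, 18, 18, 27, 27, 27, 27, 27]) (.cons (.leaf 27 [18, 18, 15, 12, 12, 12, 11, 10, 10, 10, 9, 9, 9, 9, 9, 0, 0, 0, 0, 0, 0, 0, 0, 0, 0, 0, 0, 0] [0, 0, 0, 3, 6, 7, 8, 9, 18, 18, 27, 27, 27, 27, 27]) (.cons (.leaf 27 [18, 18, 15, 12, 12, 12, 11, 10, 10, 10, 9, 9, 9, 9, 9, 0, 0, 0, 0, 0, 0, 0, 0, 0, 0, 0, 0, 0] [0, 0, 0, 3, 6, 7, 8, 9, 18, 18, 27, 27, 27, 27, 27]) (.cons (.leaf 27 [18, 18, 15, 12, 12, 12, 11, 10, 10, 10, 9, 9, 9, 9, 9, 0, 0, 0, 0, 0, 0, 0, 0, 0, 0, 0, 0, 0] [0, 0, 0, 3, 6, 7, 8, 9, 18, 18, 27, 27, 27, 27, 27]) (.cons (.leaf 27 [18, 18, 15, 12, 12, 12, 11, 10, 10, 10, 9, 9, 9, 9, 9, 0, 0, 0, 0, 0, 0, 0, 0, 0, 0, 0, 0, 0] [0, 0, 0, 3, 6, 7, 8, 9, 18, 18, 27, 27, 27, 27, 27]) (.cons .nil (.cons .nil (.cons .nil .nil)))))))))))))))))))))))))))))) (.cons (.node 15 (.leaf 6 [3, 3, 3, 3, 3, 3, 3, 3, 3, 3, 3, 3, 3, 3, 3, 3, 3, 3, 3, 3, 2, 1, 1, 1, 0, 0, 0, 0, 0] [0, 0, 0, 0, 0, 0, 0, 0, 0, 0, 0, 3, 3, 4, 5]) (.cons (.leaf 9 [9, 6, 3, 3, 3, 2, 1, 1, 1, 0, 0, 0, 0, 0, 0, 0, 0, 0, 0, 0, 0, 0, 0, 0, 0, 0, 0, 0] [0, 0, 0, 3, 6, 7, 8, 9, 9, 9, 9, 9, 9, 9, 9]) (.cons (.leaf 9 [9, 6, 3, 3, 3, 2, 1, 1, 1, 0, 0, 0, 0, 0, 0, 0, 0, 0, 0, 0, 0, 0, 0, 0, 0, 0, 0, 0] [0, 0, 0, 3, 6, 7, 8, 9, 9, 9, 9, 9, 9, 9, 9]) (.cons (.leaf 3 [2, 2, 1, 1, 1, 1, 1, 1, 1, 1, 1, 1, 1, 1, 0, 0, 0, 0, 0, 0, 0, 0, 0, 0, 0, 0, 0, 0] [0, 0, 0, 1, 1, 1, 1, 1, 2, 2, 3, 3, 3, 3, 3]) (.cons (.leaf 27 [18, 18, 15, 12, 12, 11, 10, 10, 10, 9, 9, 9, 9, 0, 0, 0, 0, 0, 0, 0, 0, 0, 0, 0, 0, 0, 0, 0] [0, 0, 0, 3, 6, 7, 8, 9, 27, 27, 27, 27, 27, 27, 27]) (.cons (.leaf 27 [18, 18, 15, 12, 12, 11, 10, 10, 10, 9, 9, 9, 9, 0, 0, 0, 0, 0, 0, 0, 0, 0, 0, 0, 0, 0, 0, 0] [0, 0, 0, 3, 6, 7, 8, 9, 27, 27, 27, 27, 27, 27, 27]) (.cons (.leaf 27 [18, 18, 15, 12, 12, 11, 10, 10, 10, 9, 9, 9, 9, 0, 0, 0, 0, 0, 0, 0, 0, 0, 0, 0, 0, 0, 0, 0] [0, 0, 0, 3, 6, 7, 8, 9, 27, 27, 27, 27, 27, 27, 27]) (.cons (.leaf 18 [12, 12, 10, 8, 8, 8, 7, 7, 7, 6, 6, 6, 6, 0, 0, 0, 0, 0, 0, 0, 0, 0, 0, 0, 0, 0, 0, 0] [0, 0, 0, 2, 4, 4, 5, 6, 18, 18, 18, 18, 18, 18, 18]) (.cons (.leaf 9 [6, 6, 5, 4, 4, 4, 4, 3, 3, 3, 3, 3, 3, 0, 0, 0, 0, 0, 0, 0, 0, 0, 0, 0, 0, 0, 0, 0] [0, 0, 0, 1, 2, 2, 3, 3, 9, 9, 9, 9, 9, 9, 9]) (.cons (.leaf 27 [18, 18, 15, 12, 12, 12, 11, 10, 10, 9, 9, 9, 9, 0, 0, 0, 0, 0, 0, 0, 0, 0, 0, 0, 0, 0, 0, 0] [0, 0, 0, 3, 6, 7, 8, 9, 27, 27, 27, 27, 27, 27, 27]) (.cons (.leaf 27 [18, 18, 15, 12, 12, 12, 11, 10, 10, 9, 9, 9, 9, 0, 0, 0, 0, 0, 0, 0, 0, 0, 0, 0, 0, 0, 0, 0] [0, 0, 0, 3, 6, 7, 8, 9, 27, 27, 27, 27, 27, 27, 27]) (.cons (.leaf 27 [18, 18, 15, 12, 12, 12, 11, 10, 10, 10, 9, 9, 9, 0, 0, 0, 0, 0, 0, 0, 0, 0, 0, 0, 0, 0, 0, 0] [0, 0, 0, 3, 6, 7, 8, 9, 27, 27, 27, 27, 27, 27, 27]) (.cons (.leaf 27 [18, 18, 15, 12, 12, 12, 11, 10, 10, 10, 9, 9, 9, 0, 0, 0, 0, 0, 0, 0, 0, 0, 0, 0, 0, 0, 0, 0] [0, 0, 0, 3, 6, 7, 8, 9, 27, 27, 27, 27, 27, 27, 27]) (.cons (.leaf 27 [18, 18, 15, 12, 12, 12, 11, 10, 10, 10, 9, 9, 9, 9, 0, 0, 0, 0, 0, 0, 0, 0, 0, 0, 0, 0, 0, 0] [0, 0, 0, 3, 6, 7, 8, 9, 18, 18, 27, 27, 27, 27, 27]) (.cons (.leaf 27 [18, 18, 15, 12, 12, 12, 11, 10, 10, 10, 9, 9, 9, 9, 0, 0, 0, 0, 0, 0, 0, 0, 0, 0, 0, 0, 0, 0] [0, 0, 0, 3, 6, 7, 8, 9, 18, 18, 27, 27, 27, 27, 27]) (.cons (.leaf 27 [18, 18, 15, 12, 12, 12, 11, 10, 10, 10, 9, 9, 9, 9, 0, 0, 0, 0, 0, 0, 0, 0, 0, 0, 0, 0, 0, 0] [0, 0, 0, 3, 6, 7, 8, 9, 18, 18, 27, 27, 27, 27, 27]) (.cons (.node 15 (.leaf 6 [3, 3, 3, 3, 3, 3, 3, 3, 3, 3, 3, 3, 3, 3, 3, 3, 3, 3, 2, 1, 1, 1, 0, 0, 0, 0, 0] [0, 0, 0, 0, 0, 0, 0, 0, 0, 0, 0, 3, 3, 4, 5]) (.cons (.leaf 9 [9, 6, 3, 3, 3, 2, 1, 1, 1, 0, 0, 0, 0, 0, 0, 0, 0, 0, 0, 0, 0, 0, 0, 0, 0, 0] [0, 0, 0, 3, 6, 7, 8, 9, 9, 9, 9, 9, 9, 9, 9]) (.cons (.leaf 9 [9, 6, 3, 3, 3, 2, 1, 1, 1, 0, 0, 0, 0, 0, 0, 0, 0, 0, 0, 0, 0, 0, 0, 0, 0, 0] [0, 0, 0, 3, 6, 7, 8, 9, 9, 9, 9, 9, 9, 9, 9]) (.cons (.leaf 3 [2, 2, 1, 1, 1, 1, 1, 1, 1, 1, 1, 1, 1, 1, 0, 0, 0, 0, 0, 0, 0, 0, 0, 0, 0, 0] [0, 0, 0, 1, 1, 1, 1, 1, 2, 2, 2, 3, 3, 3, 3]) (.cons (.leaf 27 [18, 18, 15, 12, 12, 11, 10, 10, 10, 9, 9, 9, 9, 9, 0, 0, 0, 0, 0, 0, 0, 0, 0, 0, 0, 0] [0, 0, 0, 3, 6, 7, 8, 9, 18, 18, 18, 27, 27, 27, 27]) (.cons (.leaf 27 [18, 18, 15, 12, 12, 11, 10, 10, 10, 9, 9, 9, 9, 9, 0, 0, 0, 0, 0, 0, 0, 0, 0, 0, 0, 0] [0, 0, 0, 3, 6, 7, 8, 9, 18, 18, 18, 27, 27, 27, 27]) (.cons (.leaf 27 [18, 18, 15, 12, 12, 11, 10, 10, 10, 9, 9, 9, 9, 9, 0, 0, 0, 0, 0, 0, 0, 0, 0, 0, 0, 0] [0, 0, 0, 3, 6, 7, 8, 9, 18, 18, 18, 27, 27, 27, 27]) (.cons (.leaf 18 [12, 12, 10, 8, 8, 8, 7, 7, 7, 6, 6, 6, 6, 6, 0, 0, 0, 0, 0, 0, 0, 0, 0, 0, 0, 0] [0, 0, 0, 2, 4, 4, 5, 6, 12, 12, 12, 18, 18, 18, 18]) (.cons (.leaf 9 [6, 6, 5, 4, 4, 4, 4, 3, 3, 3, 3, 3, 3, 3, 0, 0, 0, 0, 0, 0, 0, 0, 0, 0, 0, 0] [0, 0, 0, 1, 2, 2, 3, 3, 6, 6, 6, 9, 9, 9, 9]) (.cons (.leaf 27 [18, 18, 15, 12, 12, 12, 11, 10, 10, 9, 9, 9, 9, 9, 0, 0, 0, 0, 0, 0, 0, 0, 0, 0, 0, 0] [0, 0, 0, 3, 6, 7, 8, 9, 18, 18, 18, 27, 27, 27, 27]) (.cons (.leaf 27 [18, 18, 15, 12, 12, 12, 11, 10, 10, 9, 9, 9, 9, 9, 0, 0, 0, 0, 0, 0, 0, 0, 0, 0, 0, 0] [0, 0, 0, 3, 6, 7, 8, 9, 18, 18, 18, 27, 27, 27, 27]) (.cons (.leaf 27 [18, 18, 15, 12, 12, 12, 11, 10, 10, 10, 9, 9, 9, 0, 0, 0, 0, 0, 0, 0, 0, 0, 0, 0, 0, 0] [0, 0, 0, 3, 6, 7, 8, 9, 27, 27, 27, 27, 27, 27, 27]) (.cons (.leaf 27 [18, 18, 15, 12, 12, 12, 11, 10, 10, 10, 9, 9, 9, 0, 0, 0, 0, 0, 0, 0, 0, 0, 0, 0, 0, 0] [0, 0, 0, 3, 6, 7, 8, 9, 27, 27, 27, 27, 27, 27, 27]) (.cons (.leaf 27 [18, 18, 15, 12, 12, 12, 11, 10, 10, 10, 9, 9, 9, 9, 0, 0, 0, 0, 0, 0, 0, 0, 0, 0, 0, 0] [0, 0, 0, 3, 6, 7, 8, 9, 18, 18, 18, 27, 27, 27, 27]) (.cons (.leaf 27 [18, 18, 15, 12, 12, 12, 11, 10, 10, 10, 9, 9, 9, 9, 0, 0, 0, 0, 0, 0, 0, 0, 0, 0, 0, 0] [0, 0, 0, 3, 6, 7, 8, 9, 18, 18, 18, 27, 27, 27, 27]) (.cons (.leaf 27 [18, 18, 15, 12, 12, 12, 11, 10, 10, 10, 9, 9, 9, 9, 0, 0, 0, 0, 0, 0, 0, 0, 0, 0, 0, 0] [0, 0, 0, 3, 6, 7, 8, 9, 18, 18, 18, 27, 27, 27, 27]) (.cons (.leaf 27 [18, 18, 15, 12, 12, 12, 11, 10, 10, 10, 9, 9, 9, 9, 0, 0, 0, 0, 0, 0, 0, 0, 0, 0, 0, 0] [0, 0, 0, 3, 6, 7, 8, 9, 18, 27, 27, 27, 27, 27, 27]) (.cons (.leaf 27 [18, 18, 15, 12, 12, 12, 11, 10, 10, 10, 9, 9, 9, 9, 0, 0, 0, 0, 0, 0, 0, 0, 0, 0, 0, 0] [0, 0, 0, 3, 6, 7, 8, 9, 18, 27, 27, 27, 27, 27, 27]) (.cons (.leaf 27 [18, 18, 15, 12, 12, 12, 11, 10, 10, 10, 9, 9, 9, 9, 0, 0, 0, 0, 0, 0, 0, 0, 0, 0, 0, 0] [0, 0, 0, 3, 6, 7, 8, 9, 18, 27, 27, 27, 27, 27, 27]) (.cons (.leaf 27 [18, 18, 15, 12, 12, 12, 11, 10, 10, 10, 9, 9, 9, 9, 9, 0, 0, 0, 0, 0, 0, 0, 0, 0, 0, 0] [0, 0, 0, 3, 6, 7, 8, 9, 18, 18, 18, 27, 27, 27, 27]) (.cons (.leaf 27 [18, 18, 15, 12, 12, 12, 11, 10, 10, 10, 9, 9, 9, 9, 9, 0, 0, 0, 0, 0, 0, 0, 0, 0, 0, 0] [0, 0, 0, 3, 6, 7, 8, 9, 18, 18, 18, 27, 27, 27, 27]) (.cons (.leaf 27 [18, 18, 15, 12, 12, 12, 11, 10, 10, 10, 9, 9, 9, 9, 9, 0, 0, 0, 0, 0, 0, 0, 0, 0, 0, 0] [0, 0, 0, 3, 6, 7, 8, 9, 18, 18, 18, 27, 27, 27, 27]) (.cons (.leaf 27 [18, 18, 15, 12, 12, 12, 11, 10, 10, 10, 9, 9, 9, 9, 9, 0, 0, 0, 0, 0, 0, 0, 0, 0, 0, 0] [0, 0, 0, 3, 6, 7, 8, 9, 18, 18, 18, 27, 27, 27, 27]) (.cons (.leaf 27 [18, 18, 15, 12, 12, 12, 11, 10, 10, 10, 9, 9, 9, 9, 9, 0, 0, 0, 0, 0, 0, 0, 0, 0, 0, 0] [0, 0, 0, 3, 6, 7, 8, 9, 18, 18, 18, 27, 27, 27, 27]) (.cons (.leaf 27 [18, 18, 15, 12, 12, 12, 11, 10, 10, 10, 9, 9, 9, 9, 9, 0, 0, 0, 0, 0, 0, 0, 0, 0, 0, 0] [0, 0, 0, 3, 6, 7, 8, 9, 18, 18, 18, 27, 27, 27, 27]) (.cons .nil (.cons .nil (.cons .nil .nil)))))))))))))))))))))))))))) (.cons (.node 15 (.leaf 6 [3, 3, 3, 3, 3, 3, 3, 3, 3, 3, 3, 3, 3, 3, 3, 3, 3, 3, 2, 1, 1, 1, 0, 0, 0, 0, 0] [0, 0, 0, 0, 0, 0, 0, 0, 0, 0, 0, 3, 3, 4, 5]) (.cons (.leaf 9 [9, 6, 3, 3, 3, 2, 1, 1, 1, 0, 0, 0, 0, 0, 0, 0, 0, 0, 0, 0, 0, 0, 0, 0, 0, 0] [0, 0, 0, 3, 6, 7, 8, 9, 9, 9, 9, 9, 9, 9, 9]) (.cons (.leaf 9 [9, 6, 3, 3, 3, 2, 1, 1, 1, 0, 0, 0, 0, 0, 0, 0, 0, 0, 0, 0, 0, 0, 0, 0, 0, 0] [0, 0, 0, 3, 6, 7, 8, 9, 9, 9, 9, 9, 9, 9, 9]) (.cons (.leaf 3 [2, 2, 1, 1, 1, 1, 1, 1, 1, 1, 1, 1, 1, 1, 0, 0, 0, 0, 0, 0, 0, 0, 0, 0, 0, 0] [0, 0, 0, 1, 1, 1, 1, 1, 2, 2, 2, 3, 3, 3, 3]) (.cons (.leaf 27 [18, 18, 15, 12, 12, 11, 10, 10, 10, 9, 9, 9, 9, 9, 0, 0, 0, 0, 0, 0, 0, 0, 0, 0, 0, 0] [0, 0, 0, 3, 6, 7, 8, 9, 18, 18, 18, 27, 27, 27, 27]) (.cons (.leaf 27 [18, 18, 15, 12, 12, 11, 10, 10, 10, 9, 9, 9, 9, 9, 0, 0, 0, 0, 0, 0, 0, 0, 0, 0, 0, 0] [0, 0, 0, 3, 6, 7, 8, 9, 18, 18, 18, 27, 27, 27, 27]) (.cons (.leaf 27 [18, 18, 15, 12, 12, 11, 10, 10, 10, 9, 9, 9, 9, 9, 0, 0, 0, 0, 0, 0, 0, 0, 0, 0, 0, 0] [0, 0, 0, 3, 6, 7, 8, 9, 18, 18, 18, 27, 27, 27, 27]) (.cons (.leaf 18 [12, 12, 10, 8, 8, 8, 7, 7, 7, 6, 6, 6, 6, 6, 0, 0, 0, 0, 0, 0, 0, 0, 0, 0, 0, 0] [0, 0, 0, 2, 4, 4, 5, 6, 12, 12, 12, 18, 18, 18, 18]) (.cons (.leaf 9 [6, 6, 5, 4, 4, 4, 4, 3, 3, 3, 3, 3, 3, 3, 0, 0, 0, 0, 0, 0, 0, 0, 0, 0, 0, 0] [0, 0, 0, 1, 2, 2, 3, 3, 6, 6, 6, 9, 9, 9, 9]) (.cons (.leaf 27 [18, 18, 15, 12, 12, 12, 11, 10, 10, 9, 9, 9, 9, 9, 0, 0, 0, 0, 0, 0, 0, 0, 0, 0, 0, 0] [0, 0, 0, 3, 6, 7, 8, 9, 18, 18, 18, 27, 27, 27, 27]) (.cons (.leaf 27 [18, 18, 15, 12, 12, 12, 11, 10, 10, 9, 9, 9, 9, 9, 0, 0, 0, 0, 0, 0, 0, 0, 0, 0, 0, 0] [0, 0, 0, 3, 6, 7, 8, 9, 18, 18, 18, 27, 27, 27, 27]) (.cons (.leaf 27 [18, 18, 15, 12, 12, 12, 11, 10, 10, 10, 9, 9, 9, 0, 0, 0, 0, 0, 0, 0, 0, 0, 0, 0, 0, 0] [0, 0, 0, 3, 6, 7, 8, 9, 27, 27, 27, 27, 27, 27, 27]) (.cons (.leaf 27 [18, 18, 15, 12, 12, 12, 11, 10, 10, 10, 9, 9, 9, 0, 0, 0, 0, 0, 0, 0, 0, 0, 0, 0, 0, 0] [0, 0, 0, 3, 6, 7, 8, 9, 27, 27, 27, 27, 27, 27, 27]) (.cons (.leaf 27 [18, 18, 15, 12, 12, 12, 11, 10, 10, 10, 9, 9, 9, 9, 0, 0, 0, 0, 0, 0, 0, 0, 0, 0, 0, 0] [0, 0, 0, 3, 6, 7, 8, 9, 18, 18, 18, 27, 27, 27, 27]) (.cons (.leaf 27 [18, 18, 15, 12, 12, 12, 11, 10, 10, 10, 9, 9, 9, 9, 0, 0, 0, 0, 0, 0, 0, 0, 0, 0, 0, 0] [0, 0, 0, 3, 6, 7, 8, 9, 18, 18, 18, 27, 27, 27, 27]) (.cons (.leaf 27 [18, 18, 15, 12, 12, 12, 11, 10, 10, 10, 9, 9, 9, 9, 0, 0, 0, 0, 0, 0, 0, 0, 0, 0, 0, 0] [0, 0, 0, 3, 6, 7, 8, 9, 18, 18, 18, 27, 27, 27, 27]) (.cons (.leaf 27 [18, 18, 15, 12, 12, 12, 11, 10, 10, 10, 9, 9, 9, 9, 0, 0, 0, 0, 0, 0, 0, 0, 0, 0, 0, 0] [0, 0, 0, 3, 6, 7, 8, 9, 18, 27, 27, 27, 27, 27, 27]) (.cons (.leaf 27 [18, 18, 15, 12, 12, 12, 11, 10, 10, 10, 9, 9, 9, 9, 0, 0, 0, 0, 0, 0, 0, 0, 0, 0, 0, 0] [0, 0, 0, 3, 6, 7, 8, 9, 18, 27, 27, 27, 27, 27, 27]) (.cons (.leaf 27 [18, 18, 15, 12, 12, 12, 11, 10, 10, 10, 9, 9, 9, 9, 0, 0, 0, 0, 0, 0, 0, 0, 0, 0, 0, 0] [0, 0, 0, 3, 6, 7, 8, 9, 18, 27, 27, 27, 27, 27, 27]) (.cons (.leaf 27 [18, 18, 15, 12, 12, 12, 11, 10, 10, 10, 9, 9, 9, 9, 9, 0, 0, 0, 0, 0, 0, 0, 0, 0, 0, 0] [0, 0, 0, 3, 6, 7, 8, 9, 18, 18, 18, 27, 27, 27, 27]) (.cons (.leaf 27 [18, 18, 15, 12, 12, 12, 11, 10, 10, 10, 9, 9, 9, 9, 9, 0, 0, 0, 0, 0, 0, 0, 0, 0, 0, 0] [0, 0, 0, 3, 6, 7, 8, 9, 18, 18, 18, 27, 27, 27, 27]) (.cons (.leaf 27 [18, 18, 15, 12, 12, 12, 11, 10, 10, 10, 9, 9, 9, 9, 9, 0, 0, 0, 0, 0, 0, 0, 0, 0, 0, 0] [0, 0, 0, 3, 6, 7, 8, 9, 18, 18, 18, 27, 27, 27, 27]) (.cons (.leaf 27 [18, 18, 15, 12, 12, 12, 11, 10, 10, 10, 9, 9, 9, 9, 9, 0, 0, 0, 0, 0, 0, 0, 0, 0, 0, 0] [0, 0, 0, 3, 6, 7, 8, 9, 18, 18, 18, 27, 27, 27, 27]) (.cons (.leaf 27 [18, 18, 15, 12, 12, 12, 11, 10, 10, 10, 9, 9, 9, 9, 9, 0, 0, 0, 0, 0, 0, 0, 0, 0, 0, 0] [0, 0, 0, 3, 6, 7, 8, 9, 18, 18, 18, 27, 27, 27, 27]) (.cons (.leaf 27 [18, 18, 15, 12, 12, 12, 11, 10, 10, 10, 9, 9, 9, 9, 9, 0, 0, 0, 0, 0, 0, 0, 0, 0, 0, 0] [0, 0, 0, 3, 6, 7, 8, 9, 18, 18, 18, 27, 27, 27, 27]) (.cons .nil (.cons .nil (.cons .nil .nil)))))))))))))))))))))))))))) (.cons (.leaf 27 [18, 18, 15, 12, 12, 12, 11, 10, 10, 10, 9, 9, 9, 9, 9, 0, 0, 0, 0, 0, 0, 0, 0, 0, 0, 0, 0, 0] [0, 0, 0, 3, 6, 7, 8, 9, 18, 18, 27, 27, 27, 27, 27]) (.cons (.leaf 27 [18, 18, 15, 12, 12, 12, 11, 10, 10, 10, 9, 9, 9, 9, 9, 0, 0, 0, 0, 0, 0, 0, 0, 0, 0, 0, 0, 0] [0, 0, 0, 3, 6, 7, 8, 9, 18, 18, 27, 27, 27, 27, 27]) (.cons (.leaf 27 [18, 18, 15, 12, 12, 12, 11, 10, 10, 10, 9, 9, 9, 9, 9, 0, 0, 0, 0, 0, 0, 0, 0, 0, 0, 0, 0, 0] [0, 0, 0, 3, 6, 7, 8, 9, 18, 18, 27, 27, 27, 27, 27]) (.cons (.leaf 27 [18, 18, 15, 12, 12, 12, 11, 10, 10, 10, 9, 9, 9, 9, 9, 0, 0, 0, 0, 0, 0, 0, 0, 0, 0, 0, 0, 0] [0, 0, 0, 3, 6, 7, 8, 9, 18, 18, 27, 27, 27, 27, 27]) (.cons (.leaf 27 [18, 18, 15, 12, 12, 12, 11, 10, 10, 10, 9, 9, 9, 9, 9, 0, 0, 0, 0, 0, 0, 0, 0, 0, 0, 0, 0, 0] [0, 0, 0, 3, 6, 7, 8, 9, 18, 18, 27, 27, 27, 27, 27]) (.cons (.leaf 27 [18, 18, 15, 12, 12, 12, 11, 10, 10, 10, 9, 9, 9, 9, 9, 0, 0, 0, 0, 0, 0, 0, 0, 0, 0, 0, 0, 0] [0, 0, 0, 3, 6, 7, 8, 9, 18, 18, 27, 27, 27, 27, 27]) (.cons (.leaf 27 [18, 18, 15, 12, 12, 12, 11, 10, 10, 10, 9, 9, 9, 9, 9, 0, 0, 0, 0, 0, 0, 0, 0, 0, 0, 0, 0, 0] [0, 0, 0, 3, 6, 7, 8, 9, 18, 18, 27, 27, 27, 27, 27]) (.cons (.leaf 27 [18, 18, 15, 12, 12, 12, 11, 10, 10, 10, 9, 9, 9, 9, 9, 0, 0, 0, 0, 0, 0, 0, 0, 0, 0, 0, 0, 0] [0, 0, 0, 3, 6, 7, 8, 9, 18, 18, 27, 27, 27, 27, 27]) (.cons (.leaf 27 [18, 18, 15, 12, 12, 12, 11, 10, 10, 10, 9, 9, 9, 9, 9, 0, 0, 0, 0, 0, 0, 0, 0, 0, 0, 0, 0, 0] [0, 0, 0, 3, 6, 7, 8, 9, 18, 18, 27, 27, 27, 27, 27]) (.cons .nil (.cons .nil (.cons .nil .nil)))))))))))))))))))))))))))))) (.cons (.node 15 (.leaf 6 [3, 3, 3, 3, 3, 3, 3, 3, 3, 3, 3, 3, 3, 3, 3, 3, 3, 3, 3, 3, 2, 1, 1, 1, 0, 0, 0, 0, 0] [0, 0, 0, 0, 0, 0, 0, 0, 0, 0, 0, 3, 3, 4, 5]) (.cons (.leaf 9 [9, 6, 3, 3, 3, 2, 1, 1, 1, 0, 0, 0, 0, 0, 0, 0, 0, 0, 0, 0, 0, 0, 0, 0, 0, 0, 0, 0] [0, 0, 0, 3, 6, 7, 8, 9, 9, 9, 9, 9, 9, 9, 9]) (.cons (.leaf 9 [9, 6, 3, 3, 3, 2, 1, 1, 1, 0, 0, 0, 0, 0, 0, 0, 0, 0, 0, 0, 0, 0, 0, 0, 0, 0, 0, 0] [0, 0, 0, 3, 6, 7, 8, 9, 9, 9, 9, 9, 9, 9, 9]) (.cons (.leaf 3 [2, 2, 1, 1, 1, 1, 1, 1, 1, 1, 1, 1, 1, 1, 0, 0, 0, 0, 0, 0, 0, 0, 0, 0, 0, 0, 0, 0] [0, 0, 0, 1, 1, 1, 1, 1, 2, 2, 3, 3, 3, 3, 3]) (.cons (.leaf 27 [18, 18, 15, 12, 12, 11, 10, 10, 10, 9, 9, 9, 9, 0, 0, 0, 0, 0, 0, 0, 0, 0, 0, 0, 0, 0, 0, 0] [0, 0, 0, 3, 6, 7, 8, 9, 27, 27, 27, 27, 27, 27, 27]) (.cons (.leaf 27 [18, 18, 15, 12, 12, 11, 10, 10, 10, 9, 9, 9, 9, 0, 0, 0, 0, 0, 0, 0, 0, 0, 0, 0, 0, 0, 0, 0] [0, 0, 0, 3, 6, 7, 8, 9, 27, 27, 27, 27, 27, 27, 27]) (.cons (.leaf 27 [18, 18, 15, 12, 12, 11, 10, 10, 10, 9, 9, 9, 9, 0, 0, 0, 0, 0, 0, 0, 0, 0, 0, 0, 0, 0, 0, 0] [0, 0, 0, 3, 6, 7, 8, 9, 27, 27, 27, 27, 27, 27, 27]) (.cons (.leaf 18 [12, 12, 10, 8, 8, 8, 7, 7, 7, 6, 6, 6, 6, 0, 0, 0, 0, 0, 0, 0, 0, 0, 0, 0, 0, 0, 0, 0] [0, 0, 0, 2, 4, 4, 5, 6, 18, 18, 18, 18, 18, 18, 18]) (.cons (.leaf 9 [6, 6, 5, 4, 4, 4, 4, 3, 3, 3, 3, 3, 3, 0, 0, 0, 0, 0, 0, 0, 0, 0, 0, 0, 0, 0, 0, 0] [0, 0, 0, 1, 2, 2, 3, 3, 9, 9, 9, 9, 9, 9, 9]) (.cons (.leaf 27 [18, 18, 15, 12, 12, 12, 11, 10, 10, 9, 9, 9, 9, 0, 0, 0, 0, 0, 0, 0, 0, 0, 0, 0, 0, 0, 0, 0] [0, 0, 0, 3, 6, 7, 8, 9, 27, 27, 27, 27, 27, 27, 27]) (.cons (.leaf 27 [18, 18, 15, 12, 12, 12, 11, 10, 10, 9, 9, 9, 9, 0, 0, 0, 0, 0, 0, 0, 0, 0, 0, 0, 0, 0, 0, 0] [0, 0, 0, 3, 6, 7, 8, 9, 27, 27, 27, 27, 27, 27, 27]) (.cons (.leaf 27 [18, 18, 15, 12, 12, 12, 11, 10, 10, 10, 9, 9, 9, 0, 0, 0, 0, 0, 0, 0, 0, 0, 0, 0, 0, 0, 0, 0] [0, 0, 0, 3, 6, 7, 8, 9, 27, 27, 27, 27, 27, 27, 27]) (.cons (.leaf 27 [18, 18, 15, 12, 12, 12, 11, 10, 10, 10, 9, 9, 9, 0, 0, 0, 0, 0, 0, 0, 0, 0, 0, 0, 0, 0, 0, 0] [0, 0, 0, 3, 6, 7, 8, 9, 27, 27, 27, 27, 27, 27, 27]) (.cons (.leaf 27 [18, 18, 15, 12, 12, 12, 11, 10, 10, 10, 9, 9, 9, 9, 0, 0, 0, 0, 0, 0, 0, 0, 0, 0, 0, 0, 0, 0] [0, 0, 0, 3, 6, 7, 8, 9, 18, 18, 27, 27, 27, 27, 27]) (.cons (.leaf 27 [18, 18, 15, 12, 12, 12, 11, 10, 10, 10, 9, 9, 9, 9, 0, 0, 0, 0, 0, 0, 0, 0, 0, 0, 0, 0, 0, 0] [0, 0, 0, 3, 6, 7, 8, 9, 18, 18, 27, 27, 27, 27, 27]) (.cons (.leaf 27 [18, 18, 15, 12, 12, 12, 11, 10, 10, 10, 9, 9, 9, 9, 0, 0, 0, 0, 0, 0, 0, 0, 0, 0, 0, 0, 0, 0] [0, 0, 0, 3, 6, 7, 8, 9, 18, 18, 27, 27, 27, 27, 27]) (.cons (.node 15 (.leaf 6 [3, 3, 3, 3, 3, 3, 3, 3, 3, 3, 3, 3, 3, 3, 3, 3, 3, 3, 2, 1, 1, 1, 0, 0, 0, 0, 0] [0, 0, 0, 0, 0, 0, 0, 0, 0, 0, 0, 3, 3, 4, 5]) (.cons (.leaf 9 [9, 6, 3, 3, 3, 2, 1, 1, 1, 0, 0, 0, 0, 0, 0, 0, 0, 0, 0, 0, 0, 0, 0, 0, 0, 0] [0, 0, 0, 3, 6, 7, 8, 9, 9, 9, 9, 9, 9, 9, 9]) (.cons (.leaf 9 [9, 6, 3, 3, 3, 2, 1, 1, 1, 0, 0, 0, 0, 0, 0, 0, 0, 0, 0, 0, 0, 0, 0, 0, 0, 0] [0, 0, 0, 3, 6, 7, 8, 9, 9, 9, 9, 9, 9, 9, 9]) (.cons (.leaf 3 [2, 2, 1, 1, 1, 1, 1, 1, 1, 1, 1, 1, 1, 1, 0, 0, 0, 0, 0, 0, 0, 0, 0, 0, 0, 0] [0, 0, 0, 1, 1, 1, 1, 1, 2, 2, 2, 3, 3, 3, 3]) (.cons (.leaf 27 [18, 18, 15, 12, 12, 11, 10, 10, 10, 9, 9, 9, 9, 9, 0, 0, 0, 0, 0, 0, 0, 0, 0, 0, 0, 0] [0, 0, 0, 3, 6, 7, 8, 9, 18, 18, 18, 27, 27, 27, 27]) (.cons (.leaf 27 [18, 18, 15, 12, 12, 11, 10, 10, 10, 9, 9, 9, 9, 9, 0, 0, 0, 0, 0, 0, 0, 0, 0, 0, 0, 0] [0, 0, 0, 3, 6, 7, 8, 9, 18, 18, 18, 27, 27, 27, 27]) (.cons (.leaf 27 [18, 18, 15, 12, 12, 11, 10, 10, 10, 9, 9, 9, 9, 9, 0, 0, 0, 0, 0, 0, 0, 0, 0, 0, 0, 0] [0, 0, 0, 3, 6, 7, 8, 9, 18, 18, 18, 27, 27, 27, 27]) (.cons (.leaf 18 [12, 12, 10, 8, 8, 8, 7, 7, 7, 6, 6, 6, 6, 6, 0, 0, 0, 0, 0, 0, 0, 0, 0, 0, 0, 0] [0, 0, 0, 2, 4, 4, 5, 6, 12, 12, 12, 18, 18, 18, 18]) (.cons (.leaf 9 [6, 6, 5, 4, 4, 4, 4, 3, 3, 3, 3, 3, 3, 3, 0, 0, 0, 0, 0, 0, 0, 0, 0, 0, 0, 0] [0, 0, 0, 1, 2, 2, 3, 3, 6, 6, 6, 9, 9, 9, 9]) (.cons (.leaf 27 [18, 18, 15, 12, 12, 12, 11, 10, 10, 9, 9, 9, 9, 9, 0, 0, 0, 0, 0, 0, 0, 0, 0, 0, 0, 0] [0, 0, 0, 3, 6, 7, 8, 9, 18, 18, 18, 27, 27, 27, 27]) (.cons (.leaf 27 [18, 18, 15, 12, 12, 12, 11, 10, 10, 9, 9, 9, 9, 9, 0, 0, 0, 0, 0, 0, 0, 0, 0, 0, 0, 0] [0, 0, 0, 3, 6, 7, 8, 9, 18, 18, 18, 27, 27, 27, 27]) (.cons (.leaf 27 [18, 18, 15, 12, 12, 12, 11, 10, 10, 10, 9, 9, 9, 0, 0, 0, 0, 0, 0, 0, 0, 0, 0, 0, 0, 0] [0, 0, 0, 3, 6, 7, 8, 9, 27, 27, 27, 27, 27, 27, 27]) (.cons (.leaf 27 [18, 18, 15, 12, 12, 12, 11, 10, 10, 10, 9, 9, 9, 0, 0, 0, 0, 0, 0, 0, 0, 0, 0, 0, 0, 0] [0, 0, 0, 3, 6, 7, 8, 9, 27, 27, 27, 27, 27, 27, 27]) (.cons (.leaf 27 [18, 18, 15, 12, 12, 12, 11, 10, 10, 10, 9, 9, 9, 9, 0, 0, 0, 0, 0, 0, 0, 0, 0, 0, 0, 0] [0, 0, 0, 3, 6, 7, 8, 9, 18, 18, 18, 27, 27, 27, 27]) (.cons (.leaf 27 [18, 18, 15, 12, 12, 12, 11, 10, 10, 10, 9, 9, 9, 9, 0, 0, 0, 0, 0, 0, 0, 0, 0, 0, 0, 0] [0, 0, 0, 3, 6, 7, 8, 9, 18, 18, 18, 27, 27, 27, 27]) (.cons (.leaf 27 [18, 18, 15, 12, 12, 12, 11, 10, 10, 10, 9, 9, 9, 9, 0, 0, 0, 0, 0, 0, 0, 0, 0, 0, 0, 0] [0, 0, 0, 3, 6, 7, 8, 9, 18, 18, 18, 27, 27, 27, 27]) (.cons (.leaf 27 [18, 18, 15, 12, 12, 12, 11, 10, 10, 10, 9, 9, 9, 9, 0, 0, 0, 0, 0, 0, 0, 0, 0, 0, 0, 0] [0, 0, 0, 3, 6, 7, 8, 9, 18, 27, 27, 27, 27, 27, 27]) (.cons (.leaf 27 [18, 18, 15, 12, 12, 12, 11, 10, 10, 10, 9, 9, 9, 9, 0, 0, 0, 0, 0, 0, 0, 0, 0, 0, 0, 0] [0, 0, 0, 3, 6, 7, 8, 9, 18, 27, 27, 27, 27, 27, 27]) (.cons (.leaf 27 [18, 18, 15, 12, 12, 12, 11, 10, 10, 10, 9, 9, 9, 9, 0, 0, 0, 0, 0, 0, 0, 0, 0, 0, 0, 0] [0, 0, 0, 3, 6, 7, 8, 9, 18, 27, 27, 27, 27, 27, 27]) (.cons (.leaf 27 [18, 18, 15, 12, 12, 12, 11, 10, 10, 10, 9, 9, 9, 9, 9, 0, 0, 0, 0, 0, 0, 0, 0, 0, 0, 0] [0, 0, 0, 3, 6, 7, 8, 9, 18, 18, 18, 27, 27, 27, 27]) (.cons (.leaf 27 [18, 18, 15, 12, 12, 12, 11, 10, 10, 10, 9, 9, 9, 9, 9, 0, 0, 0, 0, 0, 0, 0, 0, 0, 0, 0] [0, 0, 0, 3, 6, 7, 8, 9, 18, 18, 18, 27, 27, 27, 27]) (.cons (.leaf 27 [18, 18, 15, 12, 12, 12, 11, 10, 10, 10, 9, 9, 9, 9, 9, 0, 0, 0, 0, 0, 0, 0, 0, 0, 0, 0] [0, 0, 0, 3, 6, 7, 8, 9, 18, 18, 18, 27, 27, 27, 27]) (.cons (.leaf 27 [18, 18, 15, 12, 12, 12, 11, 10, 10, 10, 9, 9, 9, 9, 9, 0, 0, 0, 0, 0, 0, 0, 0, 0, 0, 0] [0, 0, 0, 3, 6, 7, 8, 9, 18, 18, 18, 27, 27, 27, 27]) (.cons (.leaf 27 [18, 18, 15, 12, 12, 12, 11, 10, 10, 10, 9, 9, 9, 9, 9, 0, 0, 0, 0, 0, 0, 0, 0, 0, 0, 0] [0, 0, 0, 3, 6, 7, 8, 9, 18, 18, 18, 27, 27, 27, 27]) (.cons (.leaf 27 [18, 18, 15, 12, 12, 12, 11, 10, 10, 10, 9, 9, 9, 9, 9, 0, 0, 0, 0, 0, 0, 0, 0, 0, 0, 0] [0, 0, 0, 3, 6, 7, 8, 9, 18, 18, 18, 27, 27, 27, 27]) (.cons .nil (.cons .nil (.cons .nil .nil)))))))))))))))))))))))))))) (.cons (.node 15 (.leaf 6 [3, 3, 3, 3, 3, 3, 3, 3, 3, 3, 3, 3, 3, 3, 3, 3, 3, 3, 2, 1, 1, 1, 0, 0, 0, 0, 0] [0, 0, 0, 0, 0, 0, 0, 0, 0, 0, 0, 3, 3, 4, 5]) (.cons (.leaf 9 [9, 6, 3, 3, 3, 2, 1, 1, 1, 0, 0, 0, 0, 0, 0, 0, 0, 0, 0, 0, 0, 0, 0, 0, 0, 0] [0, 0, 0, 3, 6, 7, 8, 9, 9, 9, 9, 9, 9, 9, 9]) (.cons (.leaf 9 [9, 6, 3, 3, 3, 2, 1, 1, 1, 0, 0, 0, 0, 0, 0, 0, 0, 0, 0, 0, 0, 0, 0, 0, 0, 0] [0, 0, 0, 3, 6, 7, 8, 9, 9, 9, 9, 9, 9, 9, 9]) (.cons (.leaf 3 [2, 2, 1, 1, 1, 1, 1, 1, 1, 1, 1, 1, 1, 1, 0, 0, 0, 0, 0, 0, 0, 0, 0, 0, 0, 0] [0, 0, 0, 1, 1, 1, 1, 1, 2, 2, 2, 3, 3, 3, 3]) (.cons (.leaf 27 [18, 18, 15, 12, 12, 11, 10, 10, 10, 9, 9, 9, 9, 9, 0, 0, 0, 0, 0, 0, 0, 0, 0, 0, 0, 0] [0, 0, 0, 3, 6, 7, 8, 9, 18, 18, 18, 27, 27, 27, 27]) (.cons (.leaf 27 [18, 18, 15, 12, 12, 11, 10, 10, 10, 9, 9, 9, 9, 9, 0, 0, 0, 0, 0, 0, 0, 0, 0, 0, 0, 0] [0, 0, 0, 3, 6, 7, 8, 9, 18, 18, 18, 27, 27, 27, 27]) (.cons (.leaf 27 [18, 18, 15, 12, 12, 11, 10, 10, 10, 9, 9, 9, 9, 9, 0, 0, 0, 0, 0, 0, 0, 0, 0, 0, 0, 0] [0, 0, 0, 3, 6, 7, 8, 9, 18, 18, 18, 27, 27, 27, 27]) (.cons (.leaf 18 [12, 12, 10, 8, 8, 8, 7, 7, 7, 6, 6, 6, 6, 6, 0, 0, 0, 0, 0, 0, 0, 0, 0, 0, 0, 0] [0, 0, 0, 2, 4, 4, 5, 6, 12, 12, 12, 18, 18, 18, 18]) (.cons (.leaf 9 [6, 6, 5, 4, 4, 4, 4, 3, 3, 3, 3, 3, 3, 3, 0, 0, 0, 0, 0, 0, 0, 0, 0, 0, 0, 0] [0, 0, 0, 1, 2, 2, 3, 3, 6, 6, 6, 9, 9, 9, 9]) (.cons (.leaf 27 [18, 18, 15, 12, 12, 12, 11, 10, 10, 9, 9, 9, 9, 9, 0, 0, 0, 0, 0, 0, 0, 0, 0, 0, 0, 0] [0, 0, 0, 3, 6, 7, 8, 9, 18, 18, 18, 27, 27, 27, 27]) (.cons (.leaf 27 [18, 18, 15, 12, 12, 12, 11, 10, 10, 9, 9, 9, 9, 9, 0, 0, 0, 0, 0, 0, 0, 0, 0, 0, 0, 0] [0, 0, 0, 3, 6, 7, 8, 9, 18, 18, 18, 27, 27, 27, 27]) (.cons (.leaf 27 [18, 18, 15, 12, 12, 12, 11, 10, 10, 10, 9, 9, 9, 0, 0, 0, 0, 0, 0, 0, 0, 0, 0, 0, 0, 0] [0, 0, 0, 3, 6, 7, 8, 9, 27, 27, 27, 27, 27, 27, 27]) (.cons (.leaf 27 [18, 18, 15, 12, 12, 12, 11, 10, 10, 10, 9, 9, 9, 0, 0, 0, 0, 0, 0, 0, 0, 0, 0, 0, 0, 0] [0, 0, 0, 3, 6, 7, 8, 9, 27, 27, 27, 27, 27, 27, 27]) (.cons (.leaf 27 [18, 18, 15, 12, 12, 12, 11, 10, 10, 10, 9, 9, 9, 9, 0, 0, 0, 0, 0, 0, 0, 0, 0, 0, 0, 0] [0, 0, 0, 3, 6, 7, 8, 9, 18, 18, 18, 27, 27, 27, 27]) (.cons (.leaf 27 [18, 18, 15, 12, 12, 12, 11, 10, 10, 10, 9, 9, 9, 9, 0, 0, 0, 0, 0, 0, 0, 0, 0, 0, 0, 0] [0, 0, 0, 3, 6, 7, 8, 9, 18, 18, 18, 27, 27, 27, 27]) (.cons (.leaf 27 [18, 18, 15, 12, 12, 12, 11, 10, 10, 10, 9, 9, 9, 9, 0, 0, 0, 0, 0, 0, 0, 0, 0, 0, 0, 0] [0, 0, 0, 3, 6, 7, 8, 9, 18, 18, 18, 27, 27, 27, 27]) (.cons (.leaf 27 [18, 18, 15, 12, 12, 12, 11, 10, 10, 10, 9, 9, 9, 9, 0, 0, 0, 0, 0, 0, 0, 0, 0, 0, 0, 0] [0, 0, 0, 3, 6, 7, 8, 9, 18, 27, 27, 27, 27, 27, 27]) (.cons (.leaf 27 [18, 18, 15, 12, 12, 12, 11, 10, 10, 10, 9, 9, 9, 9, 0, 0, 0, 0, 0, 0, 0, 0, 0, 0, 0, 0] [0, 0, 0, 3, 6, 7, 8, 9, 18, 27, 27, 27, 27, 27, 27]) (.cons (.leaf 27 [18, 18, 15, 12, 12, 12, 11, 10, 10, 10, 9, 9, 9, 9, 0, 0, 0, 0, 0, 0, 0, 0, 0, 0, 0, 0] [0, 0, 0, 3, 6, 7, 8, 9, 18, 27, 27, 27, 27, 27, 27]) (.cons (.leaf 27 [18, 18, 15, 12, 12, 12, 11, 10, 10, 10, 9, 9, 9, 9, 9, 0, 0, 0, 0, 0, 0, 0, 0, 0, 0, 0] [0, 0, 0, 3, 6, 7, 8, 9, 18, 18, 18, 27, 27, 27, 27]) (.cons (.leaf 27 [18, 18, 15, 12, 12, 12, 11, 10, 10, 10, 9, 9, 9, 9, 9, 0, 0, 0, 0, 0, 0, 0, 0, 0, 0, 0] [0, 0, 0, 3, 6, 7, 8, 9, 18, 18, 18, 27, 27, 27, 27]) (.cons (.leaf 27 [18, 18, 15, 12, 12, 12, 11, 10, 10, 10, 9, 9, 9, 9, 9, 0, 0, 0, 0, 0, 0, 0, 0, 0, 0, 0] [0, 0, 0, 3, 6, 7, 8, 9, 18, 18, 18, 27, 27, 27, 27]) (.cons (.leaf 27 [18, 18, 15, 12, 12, 12, 11, 10, 10, 10, 9, 9, 9, 9, 9, 0, 0, 0, 0, 0, 0, 0, 0, 0, 0, 0] [0, 0, 0, 3, 6, 7, 8, 9, 18, 18, 18, 27, 27, 27, 27]) (.cons (.leaf 27 [18, 18, 15, 12, 12, 12, 11, 10, 10, 10, 9, 9, 9, 9, 9, 0, 0, 0, 0, 0, 0, 0, 0, 0, 0, 0] [0, 0, 0, 3, 6, 7, 8, 9, 18, 18, 18, 27, 27, 27, 27]) (.cons (.leaf 27 [18, 18, 15, 12, 12, 12, 11, 10, 10, 10, 9, 9, 9, 9, 9, 0, 0, 0, 0, 0, 0, 0, 0, 0, 0, 0] [0, 0, 0, 3, 6, 7, 8, 9, 18, 18, 18, 27, 27, 27, 27]) (.cons .nil (.cons .nil (.cons .nil .nil)))))))))))))))))))))))))))) (.cons (.leaf 27 [18, 18, 15, 12, 12, 12, 11, 10, 10, 10, 9, 9, 9, 9, 9, 0, 0, 0, 0, 0, 0, 0, 0, 0, 0, 0, 0, 0] [0, 0, 0, 3, 6, 7, 8, 9, 18, 18, 27, 27, 27, 27, 27]) (.cons (.leaf 27 [18, 18, 15, 12, 12, 12, 11, 10, 10, 10, 9, 9, 9, 9, 9, 0, 0, 0, 0, 0, 0, 0, 0, 0, 0, 0, 0, 0] [0, 0, 0, 3, 6, 7, 8, 9, 18, 18, 27, 27, 27, 27, 27]) (.cons (.leaf 27 [18, 18, 15, 12, 12, 12, 11, 10, 10, 10, 9, 9, 9, 9, 9, 0, 0, 0, 0, 0, 0, 0, 0, 0, 0, 0, 0, 0] [0, 0, 0, 3, 6, 7, 8, 9, 18, 18, 27, 27, 27, 27, 27]) (.cons (.leaf 27 [18, 18, 15, 12, 12, 12, 11, 10, 10, 10, 9, 9, 9, 9, 9, 0, 0, 0, 0, 0, 0, 0, 0, 0, 0, 0, 0, 0] [0, 0, 0, 3, 6, 7, 8, 9, 18, 18, 27, 27, 27, 27, 27]) (.cons (.leaf 27 [18, 18, 15, 12, 12, 12, 11, 10, 10, 10, 9, 9, 9, 9, 9, 0, 0, 0, 0, 0, 0, 0, 0, 0, 0, 0, 0, 0] [0, 0, 0, 3, 6, 7, 8, 9, 18, 18, 27, 27, 27, 27, 27]) (.cons (.leaf 27 [18, 18, 15, 12, 12, 12, 11, 10, 10, 10, 9, 9, 9, 9, 9, 0, 0, 0, 0, 0, 0, 0, 0, 0, 0, 0, 0, 0] [0, 0, 0, 3, 6, 7, 8, 9, 18, 18, 27, 27, 27, 27, 27]) (.cons (.leaf 27 [18, 18, 15, 12, 12, 12, 11, 10, 10, 10, 9, 9, 9, 9, 9, 0, 0, 0, 0, 0, 0, 0, 0, 0, 0, 0, 0, 0] [0, 0, 0, 3, 6, 7, 8, 9, 18, 18, 27, 27, 27, 27, 27]) (.cons (.leaf 27 [18, 18, 15, 12, 12, 12, 11, 10, 10, 10, 9, 9, 9, 9, 9, 0, 0, 0, 0, 0, 0, 0, 0, 0, 0, 0, 0, 0] [0, 0, 0, 3, 6, 7, 8, 9, 18, 18, 27, 27, 27, 27, 27]) (.cons (.leaf 27 [18, 18, 15, 12, 12, 12, 11, 10, 10, 10, 9, 9, 9, 9, 9, 0, 0, 0, 0, 0, 0, 0, 0, 0, 0, 0, 0, 0] [0, 0, 0, 3, 6, 7, 8, 9, 18, 18, 27, 27, 27, 27, 27]) (.cons .nil (.cons .nil (.cons .nil .nil)))))))))))))))))))))))))))))) (.cons .nil (.cons .nil (.cons .nil .nil))))))))))))))))))))))))))))))))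

theorem cert15b_ok : chk slotsL 13 cert15b none posL2 [] = true := by decide +kernel

end Vale.Agent.Helper7.P302
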