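import Vale.Agent.Helper7.P302.Defs

/-!
# P302: the second concrete instance (51 items, bin capacity scaled to 1240000)

Same pair-slot system as for the first instance (slots `slotsL`), with three dummy positives and the
outer items `535000, 435000, 415000, 395000`.
-/

namespace Vale.Agent.Helper7.P302

/-- The 32 positives: the 29 genuine ones and three dummies `817`. -/
def posL2 : List ℕ := [1, 36, 41, 60, 68, 70, 70, 78, 80, 81, 82, 83, 84, 85, 86, 133, 136, 138,
  139, 141, 143, 144, 400, 403, 405, 406, 408, 410, 411, 817, 817, 817]

/-- The scaled sizes: 15 bigs `920000 - c`, 32 smalls `160000 + p`, 4 outer items. -/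
def itemsL2 : List ℕ :=
  slotsL.map (fun c => 920000 - c) ++ posL2.map (fun p => 160000 + p) ++
    [535000, 435000, 415000, 395000]

/-- The second instance: 51 rational sizes in `(0, 1]`. -/
def inst2 : Fin 51 → ℚ := fun i => (itemsL2.getD i.1 0 : ℚ) / 1240000

end Vale.Agent.Helper7.P302
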