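import Vale.Agent.Helper7.P302.Defs

/-!
# P302: assembly of the final statement from the LP bound and the packing bound
-/

namespace Vale.Agent.Helper7.P302

open Finset

theorem itemsL_bounds : ∀ i : Fin 50, 0 < itemsL.getD i.1 0 ∧ itemsL.getD i.1 0 ≤ 300000 := by
  decide

theorem inst_pos_le (i : Fin 50) : 0 < inst i ∧ inst i ≤ 1 := by
  have h := itemsL_bounds i
  unfold inst
  constructor
  · have : (0 : ℚ) < (itemsL.getD i.1 0 : ℚ) := by exact_mod_cast h.1
    positivity
  · rw [div_le_one (by norm_num)]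
    exact_mod_cast h.2

/-- One item per bin is a packing, so the set defining `OPT` is nonempty. -/
theorem trivial_packing : IsPacking inst 50 (fun i => i) := by
  intro b
  have : univ.filter (fun i : Fin 50 => i = b) = {b} := by
    ext i; simp
  rw [this, sum_singleton]
  exact (inst_pos_le b).2

theorem result_of (hB : LP inst ≤ 5039 / 300)
    (hC : ∀ (m : ℕ) (f : Fin 50 → Fin m), IsPacking inst m f → 18 ≤ m) :
    (∀ i, 0 < inst i ∧ inst i ≤ 1) ∧ (OPT inst : ℝ) - LP inst ≥ 361 / 300 := by
  refine ⟨inst_pos_le, ?_⟩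
  have hne : {m : ℕ | ∃ f : Fin 50 → Fin m, IsPacking inst m f}.Nonempty :=
    ⟨50, fun i => i, trivial_packing⟩
  have hmem := Nat.sInf_mem hne
  obtain ⟨f, hf⟩ := hmem
  have h18 : 18 ≤ OPT inst := hC _ f hf
  have h18' : (18 : ℝ) ≤ (OPT inst : ℝ) := by exact_mod_cast h18
  linarith

end Vale.Agent.Helper7.P302
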