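import Vale.Agent.Helper7.P302.Defs3

/-!
# P302: assembly of the final statement for the third instance
-/

namespace Vale.Agent.Helper7.P302

open Finset

theorem itemsL3_bounds : ∀ i : Fin 51, 0 < itemsL3.getD i.1 0 ∧ itemsL3.getD i.1 0 ≤ 1950000 := by
  decide

theorem inst3_pos_le (i : Fin 51) : 0 < inst3 i ∧ inst3 i ≤ 1 := by
  have h := itemsL3_bounds i
  unfold inst3
  constructor
  · have : (0 : ℚ) < (itemsL3.getD i.1 0 : ℚ) := by exact_mod_cast h.1
    positivity
  · rw [div_le_one (by norm_num)]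
    exact_mod_cast h.2

/-- One item per bin is a packing, so the set defining `OPT` is nonempty. -/
theorem trivial_packing3 : IsPacking inst3 51 (fun i => i) := by
  intro b
  have : univ.filter (fun i : Fin 51 => i = b) = {b} := by
    ext i; simp
  rw [this, sum_singleton]
  exact (inst3_pos_le b).2

theorem result_of3 (hB : LP inst3 ≤ 20131 / 1200)
    (hC : ∀ (m : ℕ) (f : Fin 51 → Fin m), IsPacking inst3 m f → 18 ≤ m) :
    (∀ i, 0 < inst3 i ∧ inst3 i ≤ 1) ∧ (OPT inst3 : ℝ) - LP inst3 ≥ 1469 / 1200 := by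
  refine ⟨inst3_pos_le, ?_⟩
  have hne : {m : ℕ | ∃ f : Fin 51 → Fin m, IsPacking inst3 m f}.Nonempty :=
    ⟨51, fun i => i, trivial_packing3⟩
  have hmem := Nat.sInf_mem hne
  obtain ⟨f, hf⟩ := hmem
  have h18 : 18 ≤ OPT inst3 := hC _ f hf
  have h18' : (18 : ℝ) ≤ (OPT inst3 : ℝ) := by exact_mod_cast h18
  linarith

end Vale.Agent.Helper7.P302
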