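import Mathlib

/-!
# P302: shared definitions (bin packing, OPT, configuration LP) and the concrete instance

Everything is stated for a finite family of item sizes `a : Fin n → ℚ` and bins of capacity `1`.
-/

namespace Vale.Agent.Helper7.P302

open Finset

/-- `IsPacking a m f`: the assignment `f` of the `n` items (item `i` has size `a i`) to `m` bins
is a packing, i.e. every bin receives items of total size at most `1`. -/
def IsPacking {n : ℕ} (a : Fin n → ℚ) (m : ℕ) (f : Fin n → Fin m) : Prop :=
  ∀ b : Fin m, ∑ i ∈ univ.filter (fun i => f i = b), a i ≤ 1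

/-- `OPT a`: the least number of bins into which the items can be packed. -/
noncomputable def OPT {n : ℕ} (a : Fin n → ℚ) : ℕ :=
  sInf {m : ℕ | ∃ f : Fin n → Fin m, IsPacking a m f}

/-- The set of distinct sizes of the instance. -/
def sizeSet {n : ℕ} (a : Fin n → ℚ) : Finset ℚ := univ.image a

/-- The multiplicity of the size `σ` in the instance. -/
def mult {n : ℕ} (a : Fin n → ℚ) (σ : ℚ) : ℕ := (univ.filter (fun i => a i = σ)).card

/-- A configuration: a vector of nonnegative integers indexed by the distinct sizes
(represented as a function `ℚ → ℕ` vanishing outside the set of sizes) of total size at most `1`.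
A size may occur more often than its multiplicity. -/
def IsConfig {n : ℕ} (a : Fin n → ℚ) (c : ℚ → ℕ) : Prop :=
  (∀ σ, σ ∉ sizeSet a → c σ = 0) ∧ ∑ σ ∈ sizeSet a, σ * (c σ : ℚ) ≤ 1

/-- A feasible solution of the Gilmore-Gomory configuration LP, given as a finite family of
configurations `c j` with nonnegative real weights `z j` (a configuration may be listed several
times; its weights then add up): every size is covered at least as often as its multiplicity. -/
def IsFracSol {n : ℕ} (a : Fin n → ℚ) (k : ℕ) (c : Fin k → ℚ → ℕ) (z : Fin k → ℝ) : Prop :=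
  (∀ j, IsConfig a (c j) ∧ 0 ≤ z j) ∧
    ∀ σ ∈ sizeSet a, (mult a σ : ℝ) ≤ ∑ j, (c j σ : ℝ) * z j

/-- `LP a`: the value of the configuration LP, i.e. the infimum (it is a minimum) of the total
weight over all feasible solutions. -/
noncomputable def LP {n : ℕ} (a : Fin n → ℚ) : ℝ :=
  sInf {v : ℝ | ∃ (k : ℕ) (c : Fin k → ℚ → ℕ) (z : Fin k → ℝ), IsFracSol a k c z ∧ v = ∑ j, z j}

/-! ## The concrete instance (50 items, bin capacity scaled to 300000) -/

/-- The 15 slot values of the pair-slot system. -/
def slotsL : List ℕ := [129, 134, 136, 145, 160, 162, 166, 187, 272, 276, 283, 418, 807, 810, 817]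

/-- The 31 positives of the pair-slot system (29 genuine ones and two dummies `817`). -/
def posL : List ℕ := [1, 36, 41, 60, 68, 70, 70, 78, 80, 81, 82, 83, 84, 85, 86, 133, 136, 138,
  139, 141, 143, 144, 400, 403, 405, 406, 408, 410, 411, 817, 817]

/-- The scaled sizes: 15 bigs `220000 - c`, 31 smalls `40000 + p`, 4 outer items. -/
def itemsL : List ℕ :=
  slotsL.map (fun c => 220000 - c) ++ posL.map (fun p => 40000 + p) ++
    [136000, 126000, 96000, 96000]

/-- The instance: 50 rational sizes in `(0, 1]`. -/
def inst : Fin 50 → ℚ := fun i => (itemsL.getD i.1 0 : ℚ) / 300000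

end Vale.Agent.Helper7.P302
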