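import Vale.Agent.Helper7.P302.Defs2

/-!
# P302: the third concrete instance (51 items, bin capacity scaled to 1950000)

Same pair-slot system (slots `slotsL`, positives `posL2` with three dummies), with the outer
items `845000, 695000, 645000, 620000`.
-/

namespace Vale.Agent.Helper7.P302

/-- The scaled sizes: 15 bigs `1450000 - c`, 32 smalls `250000 + p`, 4 outer items. -/
def itemsL3 : List ℕ :=
  slotsL.map (fun c => 1450000 - c) ++ posL2.map (fun p => 250000 + p) ++
    [845000, 695000, 645000, 620000]

/-- The third instance: 51 rational sizes in `(0, 1]`. -/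
def inst3 : Fin 51 → ℚ := fun i => (itemsL3.getD i.1 0 : ℚ) / 1950000

end Vale.Agent.Helper7.P302
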