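import Vale.Agent.Helper7.P302.Defs

/-!
# P302: the configuration LP of any instance with sizes at most `1` has a feasible solution

(one configuration per item, consisting of that item alone, with weight `1`); hence the infimum
defining `LP` is taken over a nonempty set of nonnegative reals.
-/

namespace Vale.Agent.Helper7.P302

open Finset

theorem exists_fracSol {n : ℕ} (a : Fin n → ℚ) (h : ∀ i, a i ≤ 1) :
    ∃ (k : ℕ) (c : Fin k → ℚ → ℕ) (z : Fin k → ℝ), IsFracSol a k c z := by
  classical
  refine ⟨n, fun j σ => if σ = a j then 1 else 0, fun _ => 1, ?_, ?_⟩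
  · intro j
    refine ⟨⟨?_, ?_⟩, zero_le_one⟩
    · intro σ hσ
      have : σ ≠ a j := by
        rintro rfl
        exact hσ (mem_image_of_mem a (mem_univ j))
      simp [this]
    · have hmem : a j ∈ sizeSet a := mem_image_of_mem a (mem_univ j)
      have : ∑ σ ∈ sizeSet a, σ * (((if σ = a j then 1 else 0 : ℕ)) : ℚ) = a j := by
        rw [sum_eq_single (a j)]
        · simp
        · intro b _ hb
          simp [hb]
        · intro hb
          exact absurd hmem hb
      rw [this]
      exact h j
  · intro σ _
    have : ∑ j : Fin n, (((if σ = a j then 1 else 0 : ℕ)) : ℝ) * 1 = (mult a σ : ℝ) := by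
      unfold mult
      rw [card_filter]
      push_cast
      refine sum_congr rfl ?_
      intro j _
      by_cases hj : a j = σ
      · simp [hj]
      · have : σ ≠ a j := fun e => hj e.symm
        simp [hj, this]
    rw [this]

end Vale.Agent.Helper7.P302
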