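import Vale.Agent.Helper6.P302LP

/-!
# P302: the certificate lemma in existence form

A list certificate (weight numerators with a common denominator, configurations as lists of scaled
sizes) is a feasible solution of the configuration LP with the stated total weight. The proof is
the one of `Vale.Agent.Helper6.P302LP.lp_le_of_cert`, stopped before the infimum is taken.
-/

namespace Vale.Agent.Helper7.P302

open Vale.Agent.Helper6.P302LP Finset

/-- The certificate lemma, existence form: the certificate is a feasible fractional solution of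
the stated total weight. -/
theorem exists_fracSol_of_cert (items : List ℕ) (cap den : ℕ) (hcap : 0 < cap) (hden : 0 < den)
    (cert : List (ℕ × List ℕ))
    (hmem : ∀ wl ∈ cert, ∀ s ∈ wl.2, s ∈ items)
    (hsize : ∀ wl ∈ cert, wl.2.sum ≤ cap)
    (hcov : ∀ s ∈ items, den * items.count s ≤ (cert.map (fun wl => wl.2.count s * wl.1)).sum) :
    ∃ (k : ℕ) (c : Fin k → ℚ → ℕ) (z : Fin k → ℝ),
      IsFracSol (fun i : Fin items.length => (items.get i : ℚ) / cap) k c z ∧
        ∑ j, z j = ((cert.map Prod.fst).sum : ℝ) / den := by
  set a : Fin items.length → ℚ := fun i => (items.get i : ℚ) / cap with ha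
  have hcapq : (cap : ℚ) ≠ 0 := by exact_mod_cast hcap.ne'
  have hcappos : (0 : ℚ) < cap := by exact_mod_cast hcap
  have hdenpos : (0 : ℝ) < den := by exact_mod_cast hden
  -- every scaled size of the list is a size of the instance
  have hS : ∀ s ∈ items, (s : ℚ) / cap ∈ sizeSet a := by
    intro s hs
    obtain ⟨i, hi⟩ := List.mem_iff_get.1 hs
    unfold sizeSet
    refine Finset.mem_image.2 ⟨i, Finset.mem_univ _, ?_⟩
    show (items.get i : ℚ) / cap = (s : ℚ) / cap
    rw [hi]
  -- the fractional solution
  let c : Fin cert.length → ℚ → ℕ := fun j => cfg cap (cert.get j).2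
  let z : Fin cert.length → ℝ := fun j => ((cert.get j).1 : ℝ) / den
  have hsol : IsFracSol a cert.length c z := by
    refine ⟨fun j => ⟨⟨?_, ?_⟩, ?_⟩, ?_⟩
    · intro σ hσ
      by_contra hne
      have hpos : 0 < cfg cap (cert.get j).2 σ := Nat.pos_of_ne_zero hne
      unfold cfg at hpos
      rw [List.countP_pos_iff] at hpos
      obtain ⟨s, hs, hsσ⟩ := hpos
      simp only [decide_eq_true_eq] at hsσ
      apply hσ
      rw [← hsσ]
      exact hS s (hmem _ (List.get_mem cert j) s hs)
    · have := cfg_total cap (sizeSet a) (cert.get j).2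
        (fun s hs => hS s (hmem _ (List.get_mem cert j) s hs))
      show ∑ σ ∈ sizeSet a, σ * (cfg cap (cert.get j).2 σ : ℚ) ≤ 1
      rw [this, div_le_one hcappos]
      exact_mod_cast hsize _ (List.get_mem cert j)
    · show (0 : ℝ) ≤ ((cert.get j).1 : ℝ) / den
      positivity
    · intro σ hσ
      unfold sizeSet at hσ
      obtain ⟨i, _, rfl⟩ := Finset.mem_image.1 hσ
      have hm : mult a (a i) = items.count (items.get i) := by
        unfold mult
        rw [← card_filter_get]
        congr 1
        ext i2
        simp only [Finset.mem_filter, Finset.mem_univ, true_and, ha]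
        constructor
        · intro h
          have := (div_left_inj' hcapq).1 h
          exact_mod_cast this
        · intro h
          rw [h]
      have hc : ∀ j : Fin cert.length, (c j (a i) : ℝ) * z j =
          (((cert.get j).2.count (items.get i) * (cert.get j).1 : ℕ) : ℝ) / den := by
        intro j
        show (cfg cap (cert.get j).2 ((items.get i : ℚ) / cap) : ℝ) * (((cert.get j).1 : ℝ) / den)
          = _
        rw [cfg_scaled cap hcap]
        push_cast
        ring
      rw [hm, Finset.sum_congr rfl (fun j _ => hc j), ← Finset.sum_div, le_div_iff₀ hdenpos]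
      have h1 := hcov (items.get i) (List.get_mem items i)
      have h2 := sum_fin_get cert (fun wl => ((wl.2.count (items.get i) * wl.1 : ℕ) : ℝ))
      rw [h2]
      have h3 : ((cert.map (fun wl => ((wl.2.count (items.get i) * wl.1 : ℕ) : ℝ))).sum) =
          (((cert.map (fun wl => wl.2.count (items.get i) * wl.1)).sum : ℕ) : ℝ) := by
        rw [Nat.cast_list_sum, List.map_map]
        rfl
      rw [h3]
      have : ((items.count (items.get i) * den : ℕ) : ℝ) ≤
          (((cert.map (fun wl => wl.2.count (items.get i) * wl.1)).sum : ℕ) : ℝ) := by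
        exact_mod_cast (by rw [Nat.mul_comm]; exact h1)
      exact_mod_cast this
  have hval : ((cert.map Prod.fst).sum : ℝ) / den = ∑ j, z j := by
    show _ = ∑ j : Fin cert.length, ((cert.get j).1 : ℝ) / den
    rw [← Finset.sum_div, sum_fin_get cert (fun wl => (wl.1 : ℝ))]
    congr 1
    rw [Nat.cast_list_sum, List.map_map]
    rfl
  exact ⟨cert.length, c, z, hsol, hval.symm⟩


/-- The existence form for an instance indexed by `Fin n` and read off with `getD`. -/
theorem exists_fracSol_of_cert' (n : ℕ) (items : List ℕ) (hn : items.length = n) (cap den : ℕ)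
    (hcap : 0 < cap) (hden : 0 < den) (cert : List (ℕ × List ℕ))
    (hmem : ∀ wl ∈ cert, ∀ s ∈ wl.2, s ∈ items)
    (hsize : ∀ wl ∈ cert, wl.2.sum ≤ cap)
    (hcov : ∀ s ∈ items, den * items.count s ≤ (cert.map (fun wl => wl.2.count s * wl.1)).sum) :
    ∃ (k : ℕ) (c : Fin k → ℚ → ℕ) (z : Fin k → ℝ),
      IsFracSol (fun i : Fin n => (items.getD i.1 0 : ℚ) / cap) k c z ∧
        ∑ j, z j = ((cert.map Prod.fst).sum : ℝ) / den := by
  subst hn
  have h := exists_fracSol_of_cert items cap den hcap hden cert hmem hsize hcov
  have e : (fun i : Fin items.length => (items.getD i.1 0 : ℚ) / cap) =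
      (fun i : Fin items.length => (items.get i : ℚ) / cap) := by
    funext i
    rw [List.getD_eq_getElem (hn := i.2)]
    rfl
  rw [e]
  exact h

end Vale.Agent.Helper7.P302
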